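import Vale.Agent.P002.Surface.Defs

/-! Clock and shift matrices. -/

open Matrix Fin.NatCast

namespace Vale.Agent.P002.Surface

variable {r : ℕ}

/-- The cyclic shift. -/
private def shift (r : ℕ) [NeZero r] : Mat r := Matrix.of fun i j => if j = i + 1 then 1 else 0

private lemma shift_pow [NeZero r] (k : ℕ) :
    shift r ^ k = Matrix.of fun i j => if j = i + (k : Fin r) then (1 : ℂ) else 0 := by
  induction k with
  | zero => ext i j; simp [Matrix.one_apply, eq_comm]
  | succ k ih =>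
    ext i j
    rw [pow_succ, Matrix.mul_apply, ih]
    simp only [shift, Matrix.of_apply, ite_mul, one_mul, zero_mul, Finset.sum_ite_eq',
      Finset.mem_univ, if_true, Nat.cast_succ, add_assoc]

private lemma shift_pow_card [NeZero r] : shift r ^ r = 1 := by
  rw [shift_pow]; ext i j
  simp [Matrix.one_apply, eq_comm]

theorem exists_weyl (hr : 2 ≤ r) : ∃ (ω : ℂ) (A B : Mat r), Weyl ω A B ∧
    Submodule.span ℂ (Set.range fun q : Fin r × Fin r => A ^ (q.1 : ℕ) * B ^ (q.2 : ℕ)) = ⊤ := by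
  have : NeZero r := ⟨by omega⟩
  set ω : ℂ := Complex.exp (2 * Real.pi * Complex.I / r) with hωdef
  have hω : IsPrimitiveRoot ω r := Complex.isPrimitiveRoot_exp r (NeZero.ne r)
  have hω0 : ω ≠ 0 := hω.ne_zero (NeZero.ne r)
  have hadd : ∀ i : Fin r, ω ^ ((i + 1 : Fin r) : ℕ) = ω * ω ^ (i : ℕ) := by
    intro i
    rw [Fin.val_add, Fin.val_one', Nat.add_mod_mod,
      ← pow_eq_pow_mod _ hω.pow_eq_one, pow_succ']
  set D : Mat r := diagonal fun i => ω ^ (i : ℕ) with hD
  have hSD : shift r * D = ω • (D * shift r) := by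
    ext i j
    simp only [hD, Matrix.mul_diagonal, Matrix.smul_apply, Matrix.diagonal_mul, smul_eq_mul, shift,
      Matrix.of_apply]
    by_cases h : j = i + 1
    · subst h; simp [hadd]
    · simp [h]
  have hdS : (shift r).det ≠ 0 := by
    intro h
    have := congrArg Matrix.det (shift_pow_card (r := r))
    simp [det_pow, h, zero_pow (NeZero.ne r)] at this
  have hdD : D.det ≠ 0 := by
    rw [hD, det_diagonal]
    exact Finset.prod_ne_zero_iff.2 fun i _ => pow_ne_zero _ hω0
  obtain ⟨c, hc⟩ := IsAlgClosed.exists_pow_nat_eq (shift r).det⁻¹ (NeZero.pos r)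
  obtain ⟨d, hd⟩ := IsAlgClosed.exists_pow_nat_eq D.det⁻¹ (NeZero.pos r)
  have hc0 : c ≠ 0 := fun h => by
    rw [h, zero_pow (NeZero.ne r)] at hc; exact inv_ne_zero hdS hc.symm
  have hd0 : d ≠ 0 := fun h => by
    rw [h, zero_pow (NeZero.ne r)] at hd; exact inv_ne_zero hdD hd.symm
  have hDr : D ^ r = 1 := by
    rw [hD, diagonal_pow]
    ext i j
    by_cases h : i = j
    · subst h
      simp only [diagonal_apply_eq, Pi.pow_apply, Matrix.one_apply_eq]
      rw [← pow_mul, mul_comm, pow_mul, hω.pow_eq_one, one_pow]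
    · simp [h]
  refine ⟨ω, c • shift r, d • D, ⟨hω, ?_, ?_, ?_, ⟨c ^ r, pow_ne_zero _ hc0, ?_⟩,
    ⟨d ^ r, pow_ne_zero _ hd0, ?_⟩⟩, ?_⟩
  · rw [det_smul, Fintype.card_fin, hc, inv_mul_cancel₀ hdS]
  · rw [det_smul, Fintype.card_fin, hd, inv_mul_cancel₀ hdD]
  · simp only [smul_mul_assoc, mul_smul_comm, smul_smul, hSD]
    congr 1; ring
  · rw [smul_pow, shift_pow_card]
  · rw [smul_pow, hDr]
  · refine Submodule.eq_top_iff'.2 fun M => ?_
    set V := Submodule.span ℂ
      (Set.range fun q : Fin r × Fin r => (c • shift r) ^ (q.1 : ℕ) * (d • D) ^ (q.2 : ℕ)) with hV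
    have hmem : ∀ a b : Fin r, shift r ^ (a : ℕ) * D ^ (b : ℕ) ∈ V := by
      intro a b
      have h : (c • shift r) ^ (a : ℕ) * (d • D) ^ (b : ℕ) ∈ V := Submodule.subset_span ⟨(a, b), rfl⟩
      rw [smul_pow, smul_pow, smul_mul_smul_comm] at h
      exact (V.smul_mem_iff (mul_ne_zero (pow_ne_zero _ hc0) (pow_ne_zero _ hd0))).1 h
    rw [matrix_eq_sum_single M]
    refine V.sum_mem fun i _ => V.sum_mem fun j _ => ?_
    rw [show Matrix.single i j (M i j) = M i j • Matrix.single i j (1 : ℂ) by simp]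
    refine V.smul_mem _ ((V.smul_mem_iff (Nat.cast_ne_zero.2 (NeZero.ne r) : (r : ℂ) ≠ 0)).1 ?_)
    have key : (r : ℂ) • Matrix.single i j (1 : ℂ) =
        ∑ k : Fin r, ((ω ^ (j : ℕ))⁻¹) ^ (k : ℕ) • (shift r ^ ((j - i : Fin r) : ℕ) * D ^ (k : ℕ)) := by
      ext a b
      simp only [Matrix.sum_apply, Matrix.smul_apply, smul_eq_mul, hD, diagonal_pow,
        Matrix.mul_diagonal, shift_pow, Matrix.of_apply, Pi.pow_apply, Fin.cast_val_eq_self]
      by_cases hab : b = a + (j - i)
      · rw [if_pos hab]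
        simp only [one_mul, ← mul_pow]
        by_cases hb : b = j
        · have ha : a = i := by
            subst hb
            have h' : a + (b - i) = i + (b - i) := by rw [← hab]; abel
            exact add_right_cancel h'
          subst ha hb
          simp [hω0]
        · have hne : (ω ^ (j : ℕ))⁻¹ * ω ^ (b : ℕ) ≠ 1 := by
            intro h
            apply hb
            rw [inv_mul_eq_one₀ (pow_ne_zero _ hω0)] at h
            exact Fin.ext (hω.pow_inj b.isLt j.isLt h.symm)
          have hpow : ((ω ^ (j : ℕ))⁻¹ * ω ^ (b : ℕ)) ^ r = 1 := by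
            rw [mul_pow, inv_pow, ← pow_mul, ← pow_mul, mul_comm _ r, pow_mul, hω.pow_eq_one,
              mul_comm _ r, pow_mul, hω.pow_eq_one]
            simp
          rw [Fin.sum_univ_eq_sum_range (fun k => ((ω ^ (j : ℕ))⁻¹ * ω ^ (b : ℕ)) ^ k),
            geom_sum_eq hne, hpow]
          simp [Ne.symm hb]
      · rw [if_neg hab]
        have : ¬ (i = a ∧ j = b) := by
          rintro ⟨rfl, rfl⟩; exact hab (by abel)
        simp [this]
    rw [key]
    exact V.sum_mem fun k _ => V.smul_mem _ (hmem _ _)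

end Vale.Agent.P002.Surface
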