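import Vale.Agent.P002.Surface.Defs

/-! At a mirrored Weyl pair every solution of the linearised equation is spanned by twist
velocities. -/

open Matrix NormedSpace

namespace Vale.Agent.P002.Surface

attribute [local instance] Matrix.linftyOpNormedAddCommGroup Matrix.linftyOpNormedSpace
  Matrix.linftyOpNormedRing Matrix.linftyOpNormedAlgebra

variable {r h : ℕ}

/-! ### Symmetries acting handle by handle -/

/-- A reversible substitution inside one handle preserving its commutator. -/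
structure PairSym (r : ℕ) where
  f : Mat r × Mat r → Mat r × Mat r
  g : Mat r × Mat r → Mat r × Mat r
  pf : PMap f
  pg : PMap g
  f_ok : ∀ P : Mat r × Mat r, P.1.det = 1 → P.2.det = 1 →
    (f P).1.det = 1 ∧ (f P).2.det = 1 ∧ comm (f P) = comm P ∧ g (f P) = P
  g_ok : ∀ P : Mat r × Mat r, P.1.det = 1 → P.2.det = 1 →
    (g P).1.det = 1 ∧ (g P).2.det = 1 ∧ comm (g P) = comm P ∧ f (g P) = P
  f_int : ∀ P : Mat r × Mat r, IntMat P.1 → IntMat P.2 → IntMat (f P).1 ∧ IntMat (f P).2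
  g_int : ∀ P : Mat r × Mat r, IntMat P.1 → IntMat P.2 → IntMat (g P).1 ∧ IntMat (g P).2

/-- `(a,b) ↦ (a,b)`. -/
def idSym (r : ℕ) : PairSym r where
  f P := P
  g P := P
  pf := PMap.id'
  pg := PMap.id'
  f_ok _ h1 h2 := ⟨h1, h2, rfl, rfl⟩
  g_ok _ h1 h2 := ⟨h1, h2, rfl, rfl⟩
  f_int _ h1 h2 := ⟨h1, h2⟩
  g_int _ h1 h2 := ⟨h1, h2⟩

lemma mul_adj_cancel {a b : Mat r} (hb : b.det = 1) : a * b * b.adjugate = a := by
  rw [mul_assoc, mul_adj hb, mul_one]

lemma adj_mul_cancel {a b : Mat r} (hb : b.det = 1) : a * b.adjugate * b = a := by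
  rw [mul_assoc, adj_mul hb, mul_one]

lemma det_adj {a : Mat r} (ha : a.det = 1) : a.adjugate.det = 1 := by
  rw [det_adjugate, ha, one_pow]

/-- `(a,b) ↦ (ab,b)`. -/
def twA (r : ℕ) : PairSym r where
  f P := (P.1 * P.2, P.2)
  g P := (P.1 * P.2.adjugate, P.2)
  pf := (PMap.fst.mul PMap.snd).prodMk PMap.snd
  pg := (PMap.fst.mul PMap.snd.adjugate).prodMk PMap.snd
  f_ok P h1 h2 := ⟨by rw [det_mul, h1, h2, one_mul], h2, comm_twist_left h1 h2 h2 rfl,
    Prod.ext (mul_adj_cancel h2) rfl⟩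
  g_ok P h1 h2 := ⟨by rw [det_mul, h1, det_adj h2, one_mul], h2,
    comm_twist_left h1 h2 (det_adj h2) (by rw [adj_mul h2, mul_adj h2]),
    Prod.ext (adj_mul_cancel h2) rfl⟩
  f_int P h1 h2 := ⟨h1.mul h2, h2⟩
  g_int P h1 h2 := ⟨h1.mul h2.adjugate, h2⟩

/-- `(a,b) ↦ (a,ba)`. -/
def twB (r : ℕ) : PairSym r where
  f P := (P.1, P.2 * P.1)
  g P := (P.1, P.2 * P.1.adjugate)
  pf := PMap.fst.prodMk (PMap.snd.mul PMap.fst)
  pg := PMap.fst.prodMk (PMap.snd.mul PMap.fst.adjugate)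
  f_ok P h1 h2 := ⟨h1, by rw [det_mul, h1, h2, one_mul], comm_twist_right h1 h2 h1 rfl,
    Prod.ext rfl (mul_adj_cancel h1)⟩
  g_ok P h1 h2 := ⟨h1, by rw [det_mul, det_adj h1, h2, one_mul],
    comm_twist_right h1 h2 (det_adj h1) (by rw [adj_mul h1, mul_adj h1]),
    Prod.ext rfl (adj_mul_cancel h1)⟩
  f_int P h1 h2 := ⟨h1, h2.mul h1⟩
  g_int P h1 h2 := ⟨h1, h2.mul h1.adjugate⟩

/-- The symmetry applying `φ i` on handle `i`. -/
def slotSym (φ : Fin (h + 2) → PairSym r)
    (hm : ∀ y ∈ MirSet h r, (fun i => (φ i).f (y i)) ∈ MirSet h r) : Symm h r where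
  fwd x i := (φ i).f (x i)
  bwd x i := (φ i).g (x i)
  pfwd := PMap.pi fun i => (φ i).pf.comp (PMap.proj i)
  pbwd := PMap.pi fun i => (φ i).pg.comp (PMap.proj i)
  fwd_hom y hy := by
    refine ⟨fun i => ?_, ?_⟩
    · exact ⟨((φ i).f_ok _ (hy.1 i).1 (hy.1 i).2).1, ((φ i).f_ok _ (hy.1 i).1 (hy.1 i).2).2.1⟩
    · refine Eq.trans ?_ hy.2
      exact congrArg (fun F => (List.ofFn F).prod)
        (funext fun i => ((φ i).f_ok _ (hy.1 i).1 (hy.1 i).2).2.2.1)
  bwd_hom y hy := by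
    refine ⟨fun i => ?_, ?_⟩
    · exact ⟨((φ i).g_ok _ (hy.1 i).1 (hy.1 i).2).1, ((φ i).g_ok _ (hy.1 i).1 (hy.1 i).2).2.1⟩
    · refine Eq.trans ?_ hy.2
      exact congrArg (fun F => (List.ofFn F).prod)
        (funext fun i => ((φ i).g_ok _ (hy.1 i).1 (hy.1 i).2).2.2.1)
  fwd_int y hy i := (φ i).f_int _ (hy i).1 (hy i).2
  bwd_int y hy i := (φ i).g_int _ (hy i).1 (hy i).2
  fwd_bwd y hy := funext fun i => ((φ i).g_ok _ (hy.1 i).1 (hy.1 i).2).2.2.2
  bwd_fwd y hy := funext fun i => ((φ i).f_ok _ (hy.1 i).1 (hy.1 i).2).2.2.2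
  fwd_mir := hm

/-- Slots `(twB, twA, id, …)`. -/
def symA (h r : ℕ) : Symm h r :=
  slotSym (Fin.cons (twB r) (Fin.cons (twA r) fun _ => idSym r)) (by
    rintro y ⟨a, b, ha, hb, rfl⟩
    refine ⟨a, b * a, ha, by rw [det_mul, ha, hb, one_mul], funext fun i => ?_⟩
    exact Fin.cases rfl (Fin.cases rfl fun _ => rfl) i)

/-- Slots `(twA, twB, id, …)`. -/
def symB (h r : ℕ) : Symm h r :=
  slotSym (Fin.cons (twA r) (Fin.cons (twB r) fun _ => idSym r)) (by
    rintro y ⟨a, b, ha, hb, rfl⟩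
    refine ⟨a * b, b, by rw [det_mul, ha, hb, one_mul], hb, funext fun i => ?_⟩
    exact Fin.cases rfl (Fin.cases rfl fun _ => rfl) i)

/-- Slots `twA` on handle `j+2` only. -/
def symJ (r : ℕ) (j : Fin h) : Symm h r :=
  slotSym (Fin.cons (idSym r) (Fin.cons (idSym r) fun i => if i = j then twA r else idSym r)) (by
    rintro y ⟨a, b, ha, hb, rfl⟩
    refine ⟨a, b, ha, hb, funext fun i => ?_⟩
    refine Fin.cases rfl (Fin.cases rfl fun k => ?_) i
    by_cases hk : k = j <;> simp [hk, twA, idSym])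

lemma Vel.map (φ : Symm h r) {p : Tup (h + 2) r} (hp : p ∈ Hom (h + 2) r)
    (L : Tup (h + 2) r →ₗ[ℂ] Tup (h + 2) r)
    (hL : ∀ (c : ℂ → Tup (h + 2) r) v, HasDerivAt c v 0 → c 0 = p →
      HasDerivAt (fun u => φ.fwd (c u)) (L v) 0)
    {v : Tup (h + 2) r} (hv : v ∈ Submodule.span ℂ (Vel p)) :
    L v ∈ Submodule.span ℂ (Vel (φ.fwd p)) := by
  have hsub : L '' Vel p ⊆ Vel (φ.fwd p) := by
    rintro _ ⟨w, ⟨Ψ, hΨ, hw⟩, rfl⟩
    refine ⟨_, hΨ.conj φ, ?_⟩
    have h := hL (fun u => Ψ u p) w hw (hΨ.2.1 p hp)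
    simpa [φ.bwd_fwd p hp] using h
  exact Submodule.span_mono hsub (Submodule.map_span L (Vel p) ▸ Submodule.mem_map_of_mem hv)

/-! ### Weyl pairs -/

/-- Equality up to a nonzero scalar. -/
def Sim (X Y : Mat r) : Prop := ∃ c : ℂ, c ≠ 0 ∧ X = c • Y

lemma Sim.refl (X : Mat r) : Sim X X := ⟨1, one_ne_zero, (one_smul _ _).symm⟩

lemma Sim.trans {X Y Z : Mat r} : Sim X Y → Sim Y Z → Sim X Z := by
  rintro ⟨c, hc, rfl⟩ ⟨d, hd, rfl⟩; exact ⟨c * d, mul_ne_zero hc hd, smul_smul _ _ _⟩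

lemma Sim.mul {X Y X' Y' : Mat r} : Sim X X' → Sim Y Y' → Sim (X * Y) (X' * Y') := by
  rintro ⟨c, hc, rfl⟩ ⟨d, hd, rfl⟩
  exact ⟨c * d, mul_ne_zero hc hd, by rw [smul_mul_smul_comm]⟩

lemma pow_comm_left {c : ℂ} {X Y : Mat r} (h : X * Y = c • (Y * X)) (n : ℕ) :
    X ^ n * Y = c ^ n • (Y * X ^ n) := by
  induction n with
  | zero => simp
  | succ n ih =>
    rw [pow_succ, mul_assoc, h, mul_smul_comm, ← mul_assoc, ih, smul_mul_assoc, smul_smul,
      mul_assoc, pow_succ c n, mul_comm c]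

lemma pow_comm_right {c : ℂ} {X Y : Mat r} (h : X * Y = c • (Y * X)) (n : ℕ) :
    X * Y ^ n = c ^ n • (Y ^ n * X) := by
  induction n with
  | zero => simp
  | succ n ih =>
    rw [pow_succ, ← mul_assoc, ih, smul_mul_assoc, mul_assoc, h, mul_smul_comm, smul_smul,
      ← mul_assoc, pow_succ c n]

lemma sim_mul_pow {c : ℂ} (hc : c ≠ 0) {X Y : Mat r} (h : X * Y = c • (Y * X)) (n : ℕ) :
    Sim ((X * Y) ^ n) (X ^ n * Y ^ n) := by
  induction n with
  | zero => simpa using Sim.refl (1 : Mat r)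
  | succ n ih =>
    have h' : Sim (Y ^ n * X) (X * Y ^ n) :=
      ⟨(c ^ n)⁻¹, inv_ne_zero (pow_ne_zero _ hc), by
        rw [pow_comm_right h n, inv_smul_smul₀ (pow_ne_zero _ hc)]⟩
    rw [pow_succ]
    refine (ih.mul (Sim.refl _)).trans ?_
    rw [show X ^ n * Y ^ n * (X * Y) = X ^ n * (Y ^ n * X) * Y by noncomm_ring]
    refine ((Sim.refl _).mul h').mul (Sim.refl Y) |>.trans ?_
    rw [show X ^ (n + 1) * Y ^ (n + 1) = X ^ n * (X * Y ^ n) * Y by
      rw [pow_succ, pow_succ]; noncomm_ring]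
    exact Sim.refl _

section weyl

variable {ω : ℂ} {A B : Mat r}

lemma Weyl.ne_zero (hW : Weyl ω A B) (hr : 2 ≤ r) : ω ≠ 0 := hW.1.ne_zero (by omega)

lemma Weyl.sim_pow_r_left (hW : Weyl ω A B) : Sim (A ^ r) 1 := hW.2.2.2.2.1

lemma Weyl.sim_pow_r_right (hW : Weyl ω A B) : Sim (B ^ r) 1 := hW.2.2.2.2.2

lemma Weyl.subA (hW : Weyl ω A B) (hr : 2 ≤ r) : Weyl ω A (B * A.adjugate) := by
  obtain ⟨hω, ha, hb, hab, hA, hB⟩ := hW
  have hω0 : ω ≠ 0 := hω.ne_zero (by omega)
  refine ⟨hω, ha, by rw [det_mul, hb, det_adj ha, one_mul], ?_, hA, ?_⟩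
  · rw [← mul_assoc, hab, smul_mul_assoc, adj_mul_cancel ha, mul_adj_cancel ha]
  · have hc : B * A.adjugate = ω • (A.adjugate * B) := by
      calc B * A.adjugate = A.adjugate * (A * B) * A.adjugate := by
            rw [← mul_assoc, adj_mul ha, one_mul]
        _ = ω • (A.adjugate * B) := by
            rw [hab, mul_smul_comm, smul_mul_assoc, ← mul_assoc, mul_adj_cancel ha]
    have hA' : Sim (A.adjugate ^ r) 1 := by
      obtain ⟨ν, hν, hν'⟩ := hA
      refine ⟨ν⁻¹, inv_ne_zero hν, ?_⟩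
      have h1 : A.adjugate ^ r * A ^ r = 1 := by
        rw [← (show Commute A.adjugate A from (adj_mul ha).trans (mul_adj ha).symm).mul_pow,
          adj_mul ha, one_pow]
      rw [hν', mul_smul_comm, mul_one] at h1
      rw [← h1, inv_smul_smul₀ hν]
    exact (sim_mul_pow hω0 hc r).trans ((Sim.mul hB hA').trans (by simpa using Sim.refl 1))

lemma Weyl.subB (hW : Weyl ω A B) (hr : 2 ≤ r) : Weyl ω (A * B.adjugate) B := by
  obtain ⟨hω, ha, hb, hab, hA, hB⟩ := hW
  have hω0 : ω ≠ 0 := hω.ne_zero (by omega)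
  refine ⟨hω, by rw [det_mul, ha, det_adj hb, one_mul], hb, ?_, ?_, hB⟩
  · calc A * B.adjugate * B = A * B * B.adjugate := by
          rw [adj_mul_cancel hb, mul_adj_cancel hb]
      _ = ω • (B * (A * B.adjugate)) := by rw [hab, smul_mul_assoc, mul_assoc]
  · have hc : A * B.adjugate = ω⁻¹ • (B.adjugate * A) := by
      have : B.adjugate * A = ω • (A * B.adjugate) := by
        calc B.adjugate * A = B.adjugate * (A * B) * B.adjugate := by
              rw [mul_assoc, mul_adj_cancel hb]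
          _ = ω • (A * B.adjugate) := by
              rw [hab, mul_smul_comm, smul_mul_assoc, ← mul_assoc, adj_mul hb, one_mul]
      rw [this, inv_smul_smul₀ hω0]
    have hB' : Sim (B.adjugate ^ r) 1 := by
      obtain ⟨ν, hν, hν'⟩ := hB
      refine ⟨ν⁻¹, inv_ne_zero hν, ?_⟩
      have h1 : B.adjugate ^ r * B ^ r = 1 := by
        rw [← (show Commute B.adjugate B from (adj_mul hb).trans (mul_adj hb).symm).mul_pow,
          adj_mul hb, one_pow]
      rw [hν', mul_smul_comm, mul_one] at h1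
      rw [← h1, inv_smul_smul₀ hν]
    exact (sim_mul_pow (inv_ne_zero hω0) hc r).trans
      ((Sim.mul hA hB').trans (by simpa using Sim.refl 1))

/-- `A^i B^j`. -/
def wt (A B : Mat r) (i j : ℕ) : Mat r := A ^ i * B ^ j

lemma Weyl.wt_left (hW : Weyl ω A B) (i j : ℕ) : A * wt A B i j = ω ^ j • (wt A B i j * A) := by
  rw [wt, ← mul_assoc, ← pow_succ', pow_succ, mul_assoc, pow_comm_right hW.2.2.2.1,
    mul_smul_comm, mul_assoc]

lemma Weyl.wt_right (hW : Weyl ω A B) (i j : ℕ) : wt A B i j * B = ω ^ i • (B * wt A B i j) := by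
  rw [wt, mul_assoc, ← pow_succ, pow_succ', ← mul_assoc, pow_comm_left hW.2.2.2.1,
    smul_mul_assoc, mul_assoc]

lemma Weyl.wt_trace (hW : Weyl ω A B) {i j : ℕ} (hij : ¬(r ∣ i ∧ r ∣ j)) :
    (wt A B i j).trace = 0 := by
  by_cases hj : r ∣ j
  · have h1 : ω ^ i ≠ 1 := fun e => hij ⟨(hW.1.pow_eq_one_iff_dvd i).1 e, hj⟩
    have e := congrArg (fun M => (B.adjugate * M).trace) (hW.wt_right i j)
    simp only [mul_smul_comm, trace_smul, ← mul_assoc, adj_mul hW.2.2.1, one_mul] at e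
    rw [Matrix.trace_mul_cycle, mul_adj hW.2.2.1, one_mul, smul_eq_mul] at e
    exact (mul_left_eq_self₀.1 e.symm).resolve_left h1
  · have h1 : ω ^ j ≠ 1 := fun e => hj ((hW.1.pow_eq_one_iff_dvd j).1 e)
    have e := congrArg (fun M => (M * A.adjugate).trace) (hW.wt_left i j)
    simp only [smul_mul_assoc, trace_smul, mul_adj_cancel hW.2.1] at e
    rw [Matrix.trace_mul_cycle, adj_mul hW.2.1, one_mul, smul_eq_mul] at e
    exact (mul_left_eq_self₀.1 e.symm).resolve_left h1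

end weyl

/-! ### The span statement -/

/-- Scalar coordinates to a tangent vector. -/
noncomputable def zvec (p : Tup (h + 2) r) (E : Mat r) :
    (Fin (h + 2) → ℂ × ℂ) →ₗ[ℂ] Tup (h + 2) r where
  toFun z := vec p fun i => ((z i).1 • E, (z i).2 • E)
  map_add' z z' := by
    funext i; simp [vec, add_smul, mul_add]
  map_smul' c z := by
    funext i; simp [vec, smul_smul]

/-- The scalar linearised equation in weight `(i,j)`. -/
def Cond (ω : ℂ) (i j : ℕ) (z : Fin (h + 2) → ℂ × ℂ) : Prop :=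
  (z 0).1 * (ω ^ j * (1 - (ω ^ i)⁻¹)) + (z 0).2 * ((ω ^ i)⁻¹ * (ω ^ j - 1)) +
    (z 1).1 * ((ω ^ i)⁻¹ * (1 - ω ^ j)) + (z 1).2 * (ω ^ j * ((ω ^ i)⁻¹ - 1)) = 0

/-- All weight `(i,j)` solutions are spanned by velocities, for all Weyl pairs. -/
def Good (h r : ℕ) (ω : ℂ) (i j : ℕ) : Prop :=
  ∀ A B : Mat r, Weyl ω A B → ∀ z : Fin (h + 2) → ℂ × ℂ, Cond ω i j z →
    zvec (Mir h A B) (wt A B i j) z ∈ Submodule.span ℂ (Vel (Mir h A B))

lemma zvec_apply (p : Tup (h + 2) r) (E : Mat r) (z : Fin (h + 2) → ℂ × ℂ) (i : Fin (h + 2)) :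
    zvec p E z i = ((z i).1 • ((p i).1 * E), (z i).2 • ((p i).2 * E)) := by
  simp [zvec, vec]

lemma zvec_smul (p : Tup (h + 2) r) (E : Mat r) (c : ℂ) (z : Fin (h + 2) → ℂ × ℂ) :
    zvec p (c • E) z = zvec p E (c • z) := by
  funext i
  simp [zvec_apply, smul_smul, mul_comm c]

lemma Good.congr {ω : ℂ} (hω : IsPrimitiveRoot ω r) {i j i' j' : ℕ} (hi : i ≡ i' [MOD r])
    (hj : j ≡ j' [MOD r]) (hG : Good h r ω i j) : Good h r ω i' j' := by
  intro A B hW z hz
  have hc : ∀ {X : Mat r}, Sim (X ^ r) 1 → ∀ {a b : ℕ}, a ≡ b [MOD r] → Sim (X ^ b) (X ^ a) := by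
    intro X hX a b hab
    have key : ∀ a, Sim (X ^ a) (X ^ (a % r)) ∧ Sim (X ^ (a % r)) (X ^ a) := by
      intro a
      obtain ⟨ν, hν, hν'⟩ := hX
      have : X ^ a = ν ^ (a / r) • X ^ (a % r) := by
        conv_lhs => rw [← Nat.div_add_mod a r, pow_add, pow_mul, hν', smul_pow, one_pow,
          smul_mul_assoc, one_mul]
      exact ⟨⟨_, pow_ne_zero _ hν, this⟩, ⟨(ν ^ (a / r))⁻¹, inv_ne_zero (pow_ne_zero _ hν), by
        rw [this, inv_smul_smul₀ (pow_ne_zero _ hν)]⟩⟩
    refine (key b).1.trans ?_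
    rw [show b % r = a % r from hab.symm]
    exact (key a).2
  obtain ⟨c, hc0, hce⟩ : Sim (wt A B i' j') (wt A B i j) :=
    (hc hW.sim_pow_r_left hi).mul (hc hW.sim_pow_r_right hj)
  rw [hce, zvec_smul]
  refine hG A B hW _ ?_
  have e : ∀ {a b : ℕ}, a ≡ b [MOD r] → ω ^ a = ω ^ b := fun {a b} hab => by
    rw [← pow_mod_orderOf, ← pow_mod_orderOf (n := b), ← hω.eq_orderOf]; exact congrArg _ hab
  simp only [Cond, Pi.smul_apply, Prod.smul_fst, Prod.smul_snd, smul_eq_mul] at hz ⊢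
  rw [e hi, e hj]
  linear_combination c * hz

lemma dfst {c : ℂ → Mat r × Mat r} {v : Mat r × Mat r} (hc : HasDerivAt c v 0) :
    HasDerivAt (fun u => (c u).1) v.1 0 :=
  (ContinuousLinearMap.fst ℂ (Mat r) (Mat r)).hasFDerivAt.comp_hasDerivAt (0 : ℂ) hc

lemma dsnd {c : ℂ → Mat r × Mat r} {v : Mat r × Mat r} (hc : HasDerivAt c v 0) :
    HasDerivAt (fun u => (c u).2) v.2 0 :=
  (ContinuousLinearMap.snd ℂ (Mat r) (Mat r)).hasFDerivAt.comp_hasDerivAt (0 : ℂ) hc

lemma hasDerivAt_expu (E : Mat r) : HasDerivAt (fun u : ℂ => exp (u • E)) E 0 := by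
  have h := hasDerivAt_exp_smul_const (𝕂 := ℂ) E (0 : ℂ)
  rw [zero_smul, exp_zero, one_mul] at h
  exact h

lemma hasDerivAt_expu_neg (E : Mat r) : HasDerivAt (fun u : ℂ => exp (-(u • E))) (-E) 0 := by
  simpa using hasDerivAt_expu (-E)

lemma vel_of (M : Move h r) (m : ℕ) {p v : Tup (h + 2) r}
    (hd : HasDerivAt (fun u => M.flow m u p) v 0) : v ∈ Submodule.span ℂ (Vel p) :=
  Submodule.subset_span ⟨_, M.nice m, hd⟩

/-- A single coordinate vector. -/
abbrev sgl (i : Fin (h + 2)) (a : ℂ × ℂ) : Fin (h + 2) → ℂ × ℂ := Pi.single i a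

lemma base {ω : ℂ} (hr : 2 ≤ r) {d : ℕ} (hd : ¬ r ∣ d) : Good h r ω d 0 := by
  intro A B hW z hz
  obtain ⟨hω, ha, hb, hab, ⟨ν, hν, hν'⟩, -⟩ := id hW
  have htr : (A ^ d).trace = 0 := by simpa [wt] using hW.wt_trace (i := d) (j := 0) (fun e => hd e.1)
  rw [show wt A B d 0 = A ^ d by simp [wt]]
  set E := A ^ d with hE
  set p := Mir h A B
  set S := (Submodule.span ℂ (Vel p)).comap (zvec p E)
  have hEA : E * A = A * E := by rw [hE, ← pow_succ, ← pow_succ']
  have hEB : E * B = ω ^ d • (B * E) := pow_comm_left hab d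
  have htl : tlPow d A = E := by simp [tlPow, ← hE, htr]
  have hX := hasDerivAt_expu E
  have hY := hasDerivAt_expu_neg E
  have g02 : sgl 0 (0, 1) ∈ S := by
    refine vel_of (twist0 h r) d (hasDerivAt_pi.2 fun i => ?_)
    refine Fin.cases ?_ (Fin.cases ?_ fun k => ?_) i
    · simpa [p, twist0, Move.flow, with01, htl, zvec_apply, sgl, Pi.single_apply, Prod.mk_zero_zero] using
        (hasDerivAt_const (0 : ℂ) A).prodMk (hX.const_mul B)
    all_goals simpa [p, twist0, Move.flow, with01, zvec_apply, sgl, Pi.single_apply, Prod.mk_zero_zero, Fin.ext_iff] using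
      hasDerivAt_const (0 : ℂ) _
  have g11 : sgl 1 (1, 0) ∈ S := by
    refine vel_of (twist1 h r) d (hasDerivAt_pi.2 fun i => ?_)
    refine Fin.cases ?_ (Fin.cases ?_ fun k => ?_) i
    · simpa [p, twist1, Move.flow, with01, zvec_apply, sgl, Pi.single_apply, Prod.mk_zero_zero] using
        hasDerivAt_const (0 : ℂ) (A, B)
    · simpa [p, twist1, Move.flow, with01, htl, zvec_apply, sgl, Pi.single_apply, Prod.mk_zero_zero] using
        (hX.const_mul B).prodMk (hasDerivAt_const (0 : ℂ) A)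
    · simpa [p, twist1, Move.flow, with01, zvec_apply, sgl, Pi.single_apply, Prod.mk_zero_zero, Fin.ext_iff] using
        hasDerivAt_const (0 : ℂ) ((1 : Mat r), (1 : Mat r))
  have g01 : sgl 0 (-1, ω ^ d - 1) + sgl 1 (ω ^ d, -1) ∈ S := by
    refine vel_of (slide01 h r) d (hasDerivAt_pi.2 fun i => ?_)
    have hw : (slide01 h r).word p = A := by simp [p, slide01, adj_mul hb]
    refine Fin.cases ?_ (Fin.cases ?_ fun k => ?_) i
    · have hc := (hY.const_mul A).prodMk ((hX.mul_const B).mul hY)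
      simp only [Move.flow, hw, htl]
      simpa [p, slide01, with01, zvec_apply, sgl, Pi.single_apply, Prod.mk_zero_zero, exp_zero, hEB, sub_smul,
        ← sub_eq_add_neg] using hc
    · have hc := (hX.mul_const B).prodMk (hY.const_mul A)
      simp only [Move.flow, hw, htl]
      simpa [p, slide01, with01, zvec_apply, sgl, Pi.single_apply, Prod.mk_zero_zero, hEB] using hc
    · simpa [p, slide01, Move.flow, with01, zvec_apply, sgl, Pi.single_apply, Prod.mk_zero_zero, Fin.ext_iff] using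
        hasDerivAt_const (0 : ℂ) ((1 : Mat r), (1 : Mat r))
  have gj : ∀ k : Fin h, sgl k.succ.succ (0, 1) ∈ S ∧ sgl k.succ.succ (1, 0) ∈ S := by
    intro k
    let m := (r - 1) * d
    have hmid : mid k p = 1 := by
      rw [mid_eq]; induction (List.finRange h).take k with
      | nil => rfl
      | cons a L ih => simp [p, comm_one]
    have hw : (slide1 r k).word p = A.adjugate := by
      show (p 1).2.adjugate * mid k p * (p k.succ.succ).1 * _ = _
      simp [p, hmid]
    obtain ⟨c, hc0, hc⟩ : Sim (A.adjugate ^ m) E := by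
      have h1 : A.adjugate = ν⁻¹ • A ^ (r - 1) := by
        have : A.adjugate * A ^ r = A ^ (r - 1) := by
          have hh : A ^ r = A * A ^ (r - 1) := by rw [← pow_succ']; congr 1; omega
          rw [hh, ← mul_assoc, adj_mul ha, one_mul]
        rw [← this, hν', mul_smul_comm, mul_one, inv_smul_smul₀ hν]
      rw [h1, smul_pow, ← pow_mul]
      refine Sim.trans ⟨_, pow_ne_zero _ (inv_ne_zero hν), rfl⟩ ?_
      obtain ⟨q, hq⟩ : ∃ q, r = q + 2 := ⟨r - 2, by omega⟩
      refine ⟨ν ^ (q * d), pow_ne_zero _ hν, ?_⟩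
      rw [hE, show (r - 1) * ((r - 1) * d) = r * (q * d) + d by subst hq; simp; ring,
        pow_add, pow_mul, hν', smul_pow, one_pow, smul_mul_assoc, one_mul]
    have htl' : tlPow m A.adjugate = c • E := by simp [tlPow, hc, trace_smul, htr]
    have hX' := hasDerivAt_expu (c • E)
    have hY' := hasDerivAt_expu_neg (c • E)
    have hv : c • (sgl 1 (-1, 0) + sgl k.succ.succ (0, -1) :
        Fin (h + 2) → ℂ × ℂ) ∈ S := by
      refine vel_of (slide1 r k) m (hasDerivAt_pi.2 fun i => ?_)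
      refine Fin.cases ?_ (Fin.cases ?_ fun l => ?_) i
      · simpa [p, slide1, with1j, Move.flow, zvec_apply, sgl, Pi.single_apply, Prod.mk_zero_zero, Fin.ext_iff] using
          hasDerivAt_const (0 : ℂ) (A, B)
      · have hh := (hY'.const_mul B).prodMk ((hX'.mul_const A).mul hY')
        simp only [Move.flow, hw, htl']
        simpa [p, slide1, with1j, zvec_apply, sgl, Pi.single_apply, Prod.mk_zero_zero, exp_zero, hEA, Fin.ext_iff] using hh
      · simp only [Move.flow, hw, htl']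
        by_cases hl : l = k
        · have hh := (hX'.mul hY').prodMk hY'
          subst hl
          simpa [p, slide1, with1j_succ, hmid, zvec_apply, sgl, Pi.single_apply, Prod.mk_zero_zero, exp_zero,
            Fin.ext_iff] using hh
        · simpa [p, slide1, with1j_succ, hl, zvec_apply, sgl, Pi.single_apply, Prod.mk_zero_zero, Fin.ext_iff,
            Fin.val_inj] using hasDerivAt_const (0 : ℂ) ((1 : Mat r), (1 : Mat r))
    have e2 : (sgl k.succ.succ (0, 1) : Fin (h + 2) → ℂ × ℂ) ∈ S := by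
      have := S.sub_mem (S.neg_mem (S.smul_mem c⁻¹ hv)) g11
      rw [inv_smul_smul₀ hc0] at this
      convert this using 1
      funext l
      refine Fin.cases ?_ (Fin.cases ?_ fun q => ?_) l <;>
        simp [sgl, Pi.single_apply, Fin.ext_iff]
      split_ifs <;> simp
    refine ⟨e2, ?_⟩
    let L : Tup (h + 2) r →ₗ[ℂ] Tup (h + 2) r :=
      { toFun := fun v => Function.update v k.succ.succ
          ((v k.succ.succ).1 + (v k.succ.succ).2, (v k.succ.succ).2)
        map_add' := fun v w => by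
          funext l; by_cases hl : l = k.succ.succ
          · subst hl; simp [add_add_add_comm]
          · simp [hl]
        map_smul' := fun a v => by
          funext l; by_cases hl : l = k.succ.succ
          · subst hl; simp
          · simp [hl] }
    have hp : p ∈ Hom (h + 2) r := Mir_mem_hom ha hb
    have hfix : (symJ r k).fwd p = p := funext fun l => by
      refine Fin.cases rfl (Fin.cases rfl fun q => ?_) l
      by_cases hq : q = k <;> simp [p, symJ, slotSym, hq, twA, idSym]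
    have := Vel.map (symJ r k) hp L (fun cv v hv hc0' => by
      refine hasDerivAt_pi.2 fun l => ?_
      have hl := hasDerivAt_pi.1 hv l
      refine Fin.cases (fun hl => ?_) (Fin.cases (fun hl => ?_) fun q hl => ?_) l hl
      · simpa [L, symJ, slotSym, idSym, Function.update_apply, Fin.ext_iff] using hl
      · simpa [L, symJ, slotSym, idSym, Function.update_apply, Fin.ext_iff] using hl
      · by_cases hq : q = k
        · subst hq
          simpa [L, symJ, slotSym, twA, hc0', p] using ((dfst hl).mul (dsnd hl)).prodMk (dsnd hl)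
        · simpa [L, symJ, slotSym, idSym, hq, Function.update_apply] using hl) e2
    rw [hfix] at this
    have e : L (zvec p E (sgl k.succ.succ (0, 1))) =
        zvec p E (sgl k.succ.succ (1, 0) + sgl k.succ.succ (0, 1)) := by
      funext l
      by_cases hl : l = k.succ.succ
      · subst hl; simp [L, zvec_apply, p]
      · simp [L, zvec_apply, hl]
    rw [e] at this
    simpa using S.sub_mem (show _ ∈ S from this) e2
  have hzc : (z 0).1 = (z 1).2 := by
    have h1 : (ω ^ d)⁻¹ ≠ 1 := fun e => hd ((hω.pow_eq_one_iff_dvd d).1 (inv_eq_one.1 e))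
    have := hz
    simp only [Cond, pow_zero, sub_self, mul_zero, one_mul, add_zero] at this
    exact mul_right_cancel₀ (sub_ne_zero.2 h1) (by linear_combination -this)
  show z ∈ S
  have g : (sgl 0 (1, 0) + sgl 1 (0, 1) : Fin (h + 2) → ℂ × ℂ) ∈ S := by
    convert S.neg_mem (S.sub_mem (S.sub_mem g01 (S.smul_mem (ω ^ d - 1) g02))
      (S.smul_mem (ω ^ d) g11)) using 1
    funext l
    refine Fin.cases ?_ (Fin.cases ?_ fun q => ?_) l <;>
      simp [sgl, Fin.ext_iff]
  have hrest : ∀ q : Fin h, Pi.single q.succ.succ (z q.succ.succ) ∈ S := fun q => by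
    convert S.add_mem (S.smul_mem (z q.succ.succ).1 (gj q).2) (S.smul_mem (z q.succ.succ).2 (gj q).1)
      using 1
    rw [← Pi.single_smul', ← Pi.single_smul', ← Pi.single_add]
    simp
  rw [← Finset.univ_sum_single z, Fin.sum_univ_succ, Fin.sum_univ_succ]
  rw [← add_assoc]
  refine S.add_mem ?_ (S.sum_mem fun q _ => hrest q)
  convert S.add_mem (S.add_mem (S.smul_mem (z 0).2 g02) (S.smul_mem (z 1).1 g11))
    (S.smul_mem (z 0).1 g) using 1
  funext l
  refine Fin.cases ?_ (Fin.cases ?_ fun q => ?_) l <;>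
    simp [sgl, Fin.ext_iff, hzc, Prod.ext_iff]

lemma stepA {ω : ℂ} (hr : 2 ≤ r) {i j : ℕ} (hG : Good h r ω (i + j) j) : Good h r ω i j := by
  intro A B' hW' z hz
  obtain ⟨-, ha, hb, -, -, -⟩ := id hW'
  obtain ⟨B, hW, hB'⟩ : ∃ B, Weyl ω A B ∧ B' = B * A :=
    ⟨B' * A.adjugate, hW'.subA hr, (adj_mul_cancel ha).symm⟩
  subst hB'
  have hω0 : ω ≠ 0 := hW.ne_zero hr
  obtain ⟨-, -, hbB, hab, -, -⟩ := id hW
  obtain ⟨c, hc0, hc⟩ : Sim (wt A (B * A) i j) (wt A B (i + j) j) := by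
    have h1 : B * A = ω⁻¹ • (A * B) := by rw [hab, inv_smul_smul₀ hω0]
    rw [wt, wt, pow_add, mul_assoc]
    refine (Sim.refl _).mul ((sim_mul_pow (inv_ne_zero hω0) h1 j).trans ?_)
    exact ⟨((ω ^ j) ^ j)⁻¹, inv_ne_zero (pow_ne_zero _ (pow_ne_zero _ hω0)), by
      rw [pow_comm_left (pow_comm_right hab j) j, inv_smul_smul₀ (pow_ne_zero _ (pow_ne_zero _ hω0))]⟩
  set a := ω ^ j
  let w : Fin (h + 2) → ℂ × ℂ := Fin.cons ((z 0).1, ((z 0).2 - (z 0).1) * a)
    (Fin.cons (((z 1).1 - (z 1).2) * a, (z 1).2) fun q => z q.succ.succ)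
  have hw : Cond ω (i + j) j w := by
    have h1 : ω ^ i ≠ 0 := pow_ne_zero _ hω0
    have h2 : ω ^ j ≠ 0 := pow_ne_zero _ hω0
    simp only [Cond] at hz ⊢
    simp only [w, a, Fin.cons_zero, Fin.cons_one, pow_add]
    field_simp at hz ⊢
    linear_combination hz
  have hmem := hG A B hW (c • w) (by
    simp only [Cond, Pi.smul_apply, Prod.smul_fst, Prod.smul_snd, smul_eq_mul] at hw ⊢
    linear_combination c * hw)
  let L : Tup (h + 2) r →ₗ[ℂ] Tup (h + 2) r :=
    { toFun := fun v => Fin.cons ((v 0).1, (v 0).2 * A + B * (v 0).1)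
        (Fin.cons ((v 1).1 * A + B * (v 1).2, (v 1).2) fun q => v q.succ.succ)
      map_add' := fun v w => by
        funext l
        refine Fin.cases ?_ (Fin.cases ?_ fun q => ?_) l <;> simp [add_mul, mul_add] <;> abel
      map_smul' := fun s v => by
        funext l
        refine Fin.cases ?_ (Fin.cases ?_ fun q => ?_) l <;> simp }
  have := Vel.map (symA h r) (Mir_mem_hom ha hbB) L (fun cv v hv hc0' => by
    refine hasDerivAt_pi.2 fun l => ?_
    have hl := hasDerivAt_pi.1 hv l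
    refine Fin.cases (fun hl => ?_) (Fin.cases (fun hl => ?_) fun q hl => ?_) l hl
    · simpa [L, symA, slotSym, twB, hc0'] using (dfst hl).prodMk ((dsnd hl).mul (dfst hl))
    · simpa [L, symA, slotSym, twA, hc0'] using ((dfst hl).mul (dsnd hl)).prodMk (dsnd hl)
    · simpa [L, symA, slotSym, idSym] using hl) hmem
  have hfwd : (symA h r).fwd (Mir h A B) = Mir h A (B * A) := funext fun l => by
    refine Fin.cases ?_ (Fin.cases ?_ fun q => ?_) l <;> simp [symA, slotSym, twA, twB, idSym]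
  rw [hfwd] at this
  have hEA : wt A B (i + j) j * A = a⁻¹ • (A * wt A B (i + j) j) := by
    rw [hW.wt_left, inv_smul_smul₀ (pow_ne_zero _ hω0)]
  rw [hc, zvec_smul]
  convert this using 1
  have ha0 : a ≠ 0 := pow_ne_zero _ hω0
  funext l
  refine Fin.cases ?_ (Fin.cases ?_ fun q => ?_) l
  · simp only [L, zvec_apply, Mir_zero, w, LinearMap.coe_mk, AddHom.coe_mk, Fin.cons_zero,
      Pi.smul_apply, Prod.smul_fst, Prod.smul_snd, smul_eq_mul, smul_mul_assoc, mul_smul_comm]
    refine Prod.ext rfl ?_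
    simp only [mul_assoc B, hEA, mul_smul_comm, smul_smul, ← add_smul]
    congr 1
    field_simp
    ring
  · simp only [L, zvec_apply, Fin.succ_zero_eq_one, Mir_one, w, LinearMap.coe_mk, AddHom.coe_mk, Fin.cons_one,
      Fin.cons_zero, Pi.smul_apply, Prod.smul_fst, Prod.smul_snd, smul_eq_mul, smul_mul_assoc,
      mul_smul_comm]
    refine Prod.ext ?_ rfl
    simp only [mul_assoc B, hEA, mul_smul_comm, smul_smul, ← add_smul]
    congr 1
    field_simp
    ring
  · simp [L, zvec_apply, w, smul_smul, mul_comm]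

lemma stepB {ω : ℂ} (hr : 2 ≤ r) {i j : ℕ} (hG : Good h r ω i (i + j)) : Good h r ω i j := by
  intro A' B hW' z hz
  obtain ⟨-, ha, hb, -, -, -⟩ := id hW'
  obtain ⟨A, hW, hA'⟩ : ∃ A, Weyl ω A B ∧ A' = A * B :=
    ⟨A' * B.adjugate, hW'.subB hr, (adj_mul_cancel hb).symm⟩
  subst hA'
  have hω0 : ω ≠ 0 := hW.ne_zero hr
  obtain ⟨-, haA, -, hab, -, -⟩ := id hW
  obtain ⟨c, hc0, hc⟩ : Sim (wt (A * B) B i j) (wt A B i (i + j)) := by
    rw [wt, wt, pow_add, ← mul_assoc]
    exact (sim_mul_pow hω0 hab i).mul (Sim.refl _)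
  set b := (ω ^ i)⁻¹
  let w : Fin (h + 2) → ℂ × ℂ := Fin.cons (((z 0).1 - (z 0).2) * b, (z 0).2)
    (Fin.cons ((z 1).1, ((z 1).2 - (z 1).1) * b) fun q => z q.succ.succ)
  have hw : Cond ω i (i + j) w := by
    have h1 : ω ^ i ≠ 0 := pow_ne_zero _ hω0
    have h2 : ω ^ j ≠ 0 := pow_ne_zero _ hω0
    simp only [Cond] at hz ⊢
    simp only [w, b, Fin.cons_zero, Fin.cons_one, pow_add]
    field_simp at hz ⊢
    linear_combination hz
  have hmem := hG A B hW (c • w) (by
    simp only [Cond, Pi.smul_apply, Prod.smul_fst, Prod.smul_snd, smul_eq_mul] at hw ⊢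
    linear_combination c * hw)
  let L : Tup (h + 2) r →ₗ[ℂ] Tup (h + 2) r :=
    { toFun := fun v => Fin.cons ((v 0).1 * B + A * (v 0).2, (v 0).2)
        (Fin.cons ((v 1).1, (v 1).2 * B + A * (v 1).1) fun q => v q.succ.succ)
      map_add' := fun v w => by
        funext l
        refine Fin.cases ?_ (Fin.cases ?_ fun q => ?_) l <;> simp [add_mul, mul_add] <;> abel
      map_smul' := fun s v => by
        funext l
        refine Fin.cases ?_ (Fin.cases ?_ fun q => ?_) l <;> simp }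
  have := Vel.map (symB h r) (Mir_mem_hom haA hb) L (fun cv v hv hc0' => by
    refine hasDerivAt_pi.2 fun l => ?_
    have hl := hasDerivAt_pi.1 hv l
    refine Fin.cases (fun hl => ?_) (Fin.cases (fun hl => ?_) fun q hl => ?_) l hl
    · simpa [L, symB, slotSym, twA, hc0'] using ((dfst hl).mul (dsnd hl)).prodMk (dsnd hl)
    · simpa [L, symB, slotSym, twB, hc0'] using (dfst hl).prodMk ((dsnd hl).mul (dfst hl))
    · simpa [L, symB, slotSym, idSym] using hl) hmem
  have hfwd : (symB h r).fwd (Mir h A B) = Mir h (A * B) B := funext fun l => by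
    refine Fin.cases ?_ (Fin.cases ?_ fun q => ?_) l <;> simp [symB, slotSym, twA, twB, idSym]
  rw [hfwd] at this
  have hEB := hW.wt_right i (i + j)
  rw [hc, zvec_smul]
  convert this using 1
  have hi0 : ω ^ i ≠ 0 := pow_ne_zero _ hω0
  funext l
  refine Fin.cases ?_ (Fin.cases ?_ fun q => ?_) l
  · simp only [L, zvec_apply, Mir_zero, w, LinearMap.coe_mk, AddHom.coe_mk, Fin.cons_zero,
      Pi.smul_apply, Prod.smul_fst, Prod.smul_snd, smul_eq_mul, smul_mul_assoc, mul_smul_comm]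
    refine Prod.ext ?_ rfl
    simp only [mul_assoc A, hEB, mul_smul_comm, smul_smul, ← add_smul]
    congr 1
    simp only [b]
    field_simp
    ring
  · simp only [L, zvec_apply, Fin.succ_zero_eq_one, Mir_one, w, LinearMap.coe_mk, AddHom.coe_mk, Fin.cons_one,
      Fin.cons_zero, Pi.smul_apply, Prod.smul_fst, Prod.smul_snd, smul_eq_mul, smul_mul_assoc,
      mul_smul_comm]
    refine Prod.ext rfl ?_
    simp only [mul_assoc A, hEB, mul_smul_comm, smul_smul, ← add_smul]
    congr 1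
    simp only [b]
    field_simp
    ring
  · simp [L, zvec_apply, w, smul_smul, mul_comm]

lemma good_all {ω : ℂ} (hω : IsPrimitiveRoot ω r) (hr : 2 ≤ r) {i j : ℕ}
    (hij : ¬(r ∣ i ∧ r ∣ j)) : Good h r ω i j := by
  have iterA : ∀ k {i j : ℕ}, Good h r ω (i + k * j) j → Good h r ω i j := by
    intro k
    induction k with
    | zero => intro i j hG; simpa using hG
    | succ k ih =>
      intro i j hG
      exact ih (stepA hr (by convert hG using 1; ring))
  have iterB : ∀ k {i j : ℕ}, Good h r ω i (j + k * i) → Good h r ω i j := by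
    intro k
    induction k with
    | zero => intro i j hG; simpa using hG
    | succ k ih =>
      intro i j hG
      exact ih (stepB hr (by convert hG using 1; ring))
  suffices main : ∀ n i j, i + j ≤ n → 0 < i → ¬(r ∣ i ∧ r ∣ j) → Good h r ω i j by
    rcases Nat.eq_zero_or_pos i with h0 | h0
    · subst h0
      exact Good.congr hω (show r ≡ 0 [MOD r] by simp [Nat.ModEq]) rfl
        (main _ r j le_rfl (by omega) (fun e => hij ⟨dvd_zero r, e.2⟩))
    · exact main _ i j le_rfl h0 hij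
  intro n
  induction n with
  | zero => intro i j h1 h2; omega
  | succ n ih =>
    intro i j hn hi hij
    rcases Nat.eq_zero_or_pos j with h0 | h0
    · subst h0; exact base hr fun e => hij ⟨e, dvd_zero r⟩
    · rcases lt_or_ge j i with hji | hji
      · refine iterA (r - 1) (Good.congr hω ?_ rfl (ih (i - j) j (by omega) (by omega) ?_))
        · obtain ⟨q, rfl⟩ : ∃ q, r = q + 1 := ⟨r - 1, by omega⟩
          rw [Nat.add_sub_cancel, Nat.ModEq,
            show i + q * j = (i - j) + (q + 1) * j by rw [add_mul, one_mul]; omega]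
          simp
        · rintro ⟨e1, e2⟩
          exact hij ⟨by simpa [Nat.sub_add_cancel hji.le] using Nat.dvd_add e1 e2, e2⟩
      · refine iterB (r - 1) (Good.congr hω rfl ?_ (ih i (j - i) (by omega) hi ?_))
        · obtain ⟨q, rfl⟩ : ∃ q, r = q + 1 := ⟨r - 1, by omega⟩
          rw [Nat.add_sub_cancel, Nat.ModEq,
            show j + q * i = (j - i) + (q + 1) * i by rw [add_mul, one_mul]; omega]
          simp
        · rintro ⟨e1, e2⟩
          exact hij ⟨e1, by simpa [Nat.sub_add_cancel hji] using Nat.dvd_add e2 e1⟩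

/-- Every solution of the linearised equations is a combination of velocities. -/
lemma tan_in_span {ω : ℂ} {A B : Mat r} (hr : 2 ≤ r) (hW : Weyl ω A B)
    (hsp : Submodule.span ℂ
      (Set.range fun q : Fin r × Fin r => A ^ (q.1 : ℕ) * B ^ (q.2 : ℕ)) = ⊤)
    (Y : Tup (h + 2) r) (hY : Tan A B Y) :
    vec (Mir h A B) Y ∈ Submodule.span ℂ (Vel (Mir h A B)) := by
  obtain ⟨hω, ha, hb, hab, -, -⟩ := id hW
  have hω0 := hW.ne_zero hr
  let e : Fin r × Fin r → Mat r := fun q => wt A B q.1 q.2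
  have hli : LinearIndependent ℂ e := linearIndependent_of_top_le_span_of_card_eq_finrank hsp.ge
    (by simp [Module.finrank_matrix])
  let bs := Module.Basis.mk hli hsp.ge
  have hrepr : ∀ M : Mat r, M = ∑ q, bs.repr M q • e q := fun M =>
    (bs.sum_repr M).symm.trans (Finset.sum_congr rfl fun q _ => by rw [show bs q = e q from Module.Basis.mk_apply _ _ q])
  let z : Fin r × Fin r → Fin (h + 2) → ℂ × ℂ := fun q i =>
    (bs.repr (Y i).1 q, bs.repr (Y i).2 q)
  have hdiv : ∀ q : Fin r × Fin r, r ∣ (q.1 : ℕ) ∧ r ∣ (q.2 : ℕ) → (q.1 : ℕ) = 0 ∧ (q.2 : ℕ) = 0 :=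
    fun q hq => ⟨Nat.eq_zero_of_dvd_of_lt hq.1 q.1.2, Nat.eq_zero_of_dvd_of_lt hq.2 q.2.2⟩
  have htr : ∀ M : Mat r, M.trace = 0 → ∀ q : Fin r × Fin r, r ∣ (q.1 : ℕ) ∧ r ∣ (q.2 : ℕ) →
      bs.repr M q = 0 := by
    intro M hM q hq
    have := congrArg Matrix.trace (hrepr M)
    rw [hM, trace_sum, Finset.sum_eq_single q] at this
    · have he : (e q).trace = r := by simp [e, wt, (hdiv q hq).1, (hdiv q hq).2]
      rw [trace_smul, he, smul_eq_mul] at this
      exact (mul_eq_zero.1 this.symm).resolve_right (by exact_mod_cast (by omega : r ≠ 0))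
    · intro q' _ hne
      rw [trace_smul, hW.wt_trace, smul_zero]
      intro hq'
      exact hne (Prod.ext (Fin.ext ((hdiv q' hq').1.trans (hdiv q hq).1.symm))
        (Fin.ext ((hdiv q' hq').2.trans (hdiv q hq).2.symm)))
    · simp
  have hco : ∀ q : Fin r × Fin r, Cond ω q.1 q.2 (z q) := by
    have hd : delta A B (Y 0) + delta B A (Y 1) = ∑ q : Fin r × Fin r,
        ((z q 0).1 * (ω ^ (q.2 : ℕ) * (1 - (ω ^ (q.1 : ℕ))⁻¹)) +
          (z q 0).2 * ((ω ^ (q.1 : ℕ))⁻¹ * (ω ^ (q.2 : ℕ) - 1)) +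
          (z q 1).1 * ((ω ^ (q.1 : ℕ))⁻¹ * (1 - ω ^ (q.2 : ℕ))) +
          (z q 1).2 * (ω ^ (q.2 : ℕ) * ((ω ^ (q.1 : ℕ))⁻¹ - 1))) • e q := by
      have hA : ∀ q, A * e q * A.adjugate = ω ^ (q.2 : ℕ) • e q := fun q => by
        rw [hW.wt_left, smul_mul_assoc, mul_adj_cancel ha]
      have hB : ∀ q, B * e q * B.adjugate = (ω ^ (q.1 : ℕ))⁻¹ • e q := fun q => by
        have : B * e q = (ω ^ (q.1 : ℕ))⁻¹ • (e q * B) := by
          rw [hW.wt_right, inv_smul_smul₀ (pow_ne_zero _ hω0)]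
        rw [this, smul_mul_assoc, mul_adj_cancel hb]
      have hAB : ∀ (P Q : Mat r) (q), P * Q * e q * (P * Q).adjugate =
          P * (Q * e q * Q.adjugate) * P.adjugate := fun P Q q => by
        simp only [adjugate_mul_distrib, mul_assoc]
      conv_lhs => rw [delta, delta, hrepr (Y 0).1, hrepr (Y 0).2, hrepr (Y 1).1, hrepr (Y 1).2]
      simp only [Finset.mul_sum, Finset.sum_mul, mul_smul_comm, smul_mul_assoc, hAB, hA, hB,
        smul_smul, ← Finset.sum_sub_distrib, ← Finset.sum_add_distrib, ← sub_smul, ← add_smul]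
      refine Finset.sum_congr rfl fun q _ => ?_
      congr 1
      simp only [z]
      ring
    intro q
    have := Fintype.linearIndependent_iff.1 hli _ (hd.symm.trans hY.2) q
    exact this
  have hv : vec (Mir h A B) Y = ∑ q, zvec (Mir h A B) (e q) (z q) := by
    funext i
    simp only [Finset.sum_apply, zvec_apply, vec, z]
    refine Prod.ext ?_ ?_
    · simp only [Prod.fst_sum, ← mul_smul_comm, ← Finset.mul_sum, ← hrepr]
    · simp only [Prod.snd_sum, ← mul_smul_comm, ← Finset.mul_sum, ← hrepr]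
  rw [hv]
  refine Submodule.sum_mem _ fun q _ => ?_
  by_cases hq : r ∣ (q.1 : ℕ) ∧ r ∣ (q.2 : ℕ)
  · have : z q = 0 := funext fun i => Prod.ext (htr _ (hY.1 i).1 q hq) (htr _ (hY.1 i).2 q hq)
    simp [this]
  · exact good_all hω hr hq A B hW _ (hco q)

end Vale.Agent.P002.Surface
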