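import Vale.Agent.P002.Surface.Basic

/-! The powers of a matrix near a generic diagonal matrix are Zariski dense in a torus. -/

open Matrix Filter Topology NormedSpace

namespace Vale.Agent.P002.Surface

attribute [local instance] Matrix.linftyOpNormedAddCommGroup Matrix.linftyOpNormedSpace
  Matrix.linftyOpNormedRing Matrix.linftyOpNormedAlgebra

lemma exists_eval_param {ι : Type*} [Fintype ι] [DecidableEq ι] {Y : Type*}
    [NormedAddCommGroup Y] [NormedSpace ℂ Y] {f : Y × (ι → ℂ) → ℂ} (hf : f ∈ PF (Y × (ι → ℂ))) :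
    ∃ s : Finset (ι →₀ ℕ), ∀ y, ∃ p : MvPolynomial ι ℂ, p.support ⊆ s ∧
      ∀ v, f (y, v) = MvPolynomial.eval v p := by
  refine Algebra.adjoin_induction (p := fun g _ => ∃ s : Finset (ι →₀ ℕ), ∀ y,
    ∃ p : MvPolynomial ι ℂ, p.support ⊆ s ∧ ∀ v, g (y, v) = MvPolynomial.eval v p) ?_ ?_ ?_ ?_ hf
  · rintro g ⟨l, rfl⟩
    let q : MvPolynomial ι ℂ :=
      ∑ i, MvPolynomial.C (l (0, Pi.single i 1)) * MvPolynomial.X i
    refine ⟨insert 0 q.support, fun y => ⟨MvPolynomial.C (l (y, 0)) + q, ?_, fun v => ?_⟩⟩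
    · refine MvPolynomial.support_add.trans (Finset.union_subset ?_ (Finset.subset_insert _ _))
      refine (MvPolynomial.support_monomial_subset).trans ?_
      simp
    · have hl : ((y, v) : Y × (ι → ℂ)) = (y, 0) + ∑ i, v i • ((0 : Y), Pi.single i (1 : ℂ)) := by
        ext <;> simp [Prod.fst_sum, Prod.snd_sum, Pi.single_apply]
      show l (y, v) = _
      rw [hl]
      simp only [q, map_add, map_sum, map_smul, map_mul, MvPolynomial.eval_C, MvPolynomial.eval_X,
        smul_eq_mul]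
      congr 1
      exact Finset.sum_congr rfl fun i _ => mul_comm _ _
  · intro c
    exact ⟨{0}, fun y => ⟨MvPolynomial.C c, MvPolynomial.support_monomial_subset, fun v => by simp⟩⟩
  · rintro g g' _ _ ⟨s, hs⟩ ⟨t, ht⟩
    refine ⟨s ∪ t, fun y => ?_⟩
    obtain ⟨p, hp, hp'⟩ := hs y
    obtain ⟨q, hq, hq'⟩ := ht y
    exact ⟨p + q, MvPolynomial.support_add.trans (Finset.union_subset_union hp hq),
      fun v => by simp [hp', hq']⟩
  · rintro g g' _ _ ⟨s, hs⟩ ⟨t, ht⟩
    refine ⟨Finset.image₂ (· + ·) s t, fun y => ?_⟩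
    obtain ⟨p, hp, hp'⟩ := hs y
    obtain ⟨q, hq, hq'⟩ := ht y
    exact ⟨p * q, (MvPolynomial.support_mul p q).trans (Finset.image₂_subset hp hq),
      fun v => by simp [hp', hq']⟩

/-- A vanishing exponential sum is killed by any function constant on equal frequencies. -/
lemma exp_sum_vanish {α : Type*} (s : Finset α) (c μ G : α → ℂ)
    (h : ∀ n : ℕ, ∑ q ∈ s, c q * μ q ^ n = 0)
    (hG : ∀ q ∈ s, ∀ q' ∈ s, μ q = μ q' → G q = G q') :
    ∑ q ∈ s, c q * G q = 0 := by
  classical
  let val : ℂ → ℂ := fun z => if h : ∃ q ∈ s, μ q = z then G h.choose else 0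
  let P : Polynomial ℂ := Lagrange.interpolate (s.image μ) id val
  have hP : ∀ q ∈ s, P.eval (μ q) = G q := by
    intro q hq
    have he : ∃ q' ∈ s, μ q' = μ q := ⟨q, hq, rfl⟩
    have := Lagrange.eval_interpolate_at_node (v := id) val (Function.injective_id.injOn)
      (Finset.mem_image_of_mem μ hq)
    rw [show (id (μ q) : ℂ) = μ q from rfl] at this
    rw [this, show val (μ q) = G he.choose from dif_pos he]
    exact hG _ he.choose_spec.1 _ hq he.choose_spec.2
  calc ∑ q ∈ s, c q * G q = ∑ q ∈ s, c q * P.eval (μ q) :=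
        Finset.sum_congr rfl fun q hq => by rw [hP q hq]
    _ = ∑ n ∈ Finset.range (P.natDegree + 1), P.coeff n * ∑ q ∈ s, c q * μ q ^ n := by
        simp only [Polynomial.eval_eq_sum_range, Finset.mul_sum]
        rw [Finset.sum_comm]
        refine Finset.sum_congr rfl fun n _ => Finset.sum_congr rfl fun q _ => ?_
        ring
    _ = 0 := by simp [h]

variable {r : ℕ}

/-- No multiplicative relation other than the constant ones. -/
def Generic (lam : Fin r → ℂ) : Prop :=
  (∀ i, lam i ≠ 0) ∧ (∏ i, lam i = 1) ∧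
    ∀ e : Fin r → ℤ, ∏ i, lam i ^ e i = 1 → ∀ i j, e i = e j

/-- The conjugation chart. -/
noncomputable def chart (p : Mat r × (Fin r → ℂ)) : Mat r :=
  p.1 * diagonal p.2 * Ring.inverse p.1

lemma chart_nhds {lam : Fin r → ℂ} (hinj : ∀ i j, lam i = lam j → i = j) :
    map chart (𝓝 ((1 : Mat r), lam)) = 𝓝 (diagonal lam) := by
  let D : (Fin r → ℂ) →L[ℂ] Mat r :=
    LinearMap.toContinuousLinearMap (Matrix.diagonalLinearMap (Fin r) ℂ ℂ)
  have hD : ∀ v, D v = diagonal v := fun v => rfl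
  have hs : HasStrictFDerivAt (fun p : Mat r × (Fin r → ℂ) => D p.2)
      (D.comp (ContinuousLinearMap.snd ℂ (Mat r) (Fin r → ℂ))) ((1 : Mat r), lam) :=
    (D.comp (ContinuousLinearMap.snd ℂ (Mat r) (Fin r → ℂ))).hasStrictFDerivAt
  have hf : HasStrictFDerivAt (fun p : Mat r × (Fin r → ℂ) => p.1)
      (ContinuousLinearMap.fst ℂ (Mat r) (Fin r → ℂ)) ((1 : Mat r), lam) :=
    (ContinuousLinearMap.fst ℂ (Mat r) (Fin r → ℂ)).hasStrictFDerivAt
  have h1 := hf.mul' hs
  have h2 : HasStrictFDerivAt (fun p : Mat r × (Fin r → ℂ) => Ring.inverse p.1)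
      ((-ContinuousLinearMap.mulLeftRight ℂ (Mat r) ↑(1 : (Mat r)ˣ)⁻¹ ↑(1 : (Mat r)ˣ)⁻¹).comp
        (ContinuousLinearMap.fst ℂ (Mat r) (Fin r → ℂ))) ((1 : Mat r), lam) := by
    have := hasStrictFDerivAt_ringInverse (𝕜 := ℂ) (1 : (Mat r)ˣ)
    exact this.comp ((1 : Mat r), lam) hasStrictFDerivAt_fst
  have h3 := h1.mul' h2
  have h4 : chart = (fun p : Mat r × (Fin r → ℂ) => p.1 * D p.2) *
      fun p : Mat r × (Fin r → ℂ) => Ring.inverse p.1 := by
    funext p; simp [chart, hD]
  rw [h4]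
  refine (h3.map_nhds_eq_of_surj ?_).trans ?_
  · rw [LinearMap.range_eq_top]
    intro Y
    let h : Mat r := Matrix.of fun i j => if i = j then 0 else Y i j / (lam j - lam i)
    refine ⟨(h, fun i => Y i i), ?_⟩
    show (1 : Mat r) * D lam * (-((((1 : (Mat r)ˣ)⁻¹ : (Mat r)ˣ) : Mat r) * h *
        (((1 : (Mat r)ˣ)⁻¹ : (Mat r)ˣ) : Mat r))) +
      ((1 : Mat r) * D (fun i => Y i i) + h * D lam) * Ring.inverse (1 : Mat r) = Y
    simp only [hD, one_mul, inv_one, Units.val_one, Ring.inverse_one, mul_one, mul_neg]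
    ext i j
    by_cases hij : i = j
    · subst hij
      simp [h, Matrix.neg_apply, Matrix.mul_diagonal, Matrix.diagonal_mul]
    · have hne : lam j - lam i ≠ 0 := sub_ne_zero.2 fun e => hij (hinj _ _ e).symm
      simp [h, hij, Matrix.neg_apply, Matrix.mul_diagonal, Matrix.diagonal_mul]
      field_simp
      ring
  · congr 1
    simp [hD]

/-- The traceless part of a power. -/
noncomputable def tlPow (m : ℕ) (A : Mat r) : Mat r :=
  A ^ m - ((A ^ m).trace / r) • (1 : Mat r)

/-- Indices for the coordinates used in `torus_vanish`. -/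
abbrev TIdx (r : ℕ) : Type := ((Fin r × Fin r) ⊕ (Fin r × Fin r)) ⊕ (Fin r ⊕ Fin r)

/-- If `f` vanishes at all powers of a matrix near a generic diagonal one, then it vanishes on the
torus generated by it. -/
lemma torus_vanish {Y : Type*} [NormedAddCommGroup Y] [NormedSpace ℂ Y]
    {lam : Fin r → ℂ} (hlam : Generic lam) (hinj : ∀ i j, lam i = lam j → i = j)
    {f : Y × (Mat r × Mat r) → ℂ} (hf : f ∈ PF (Y × (Mat r × Mat r))) :
    ∀ᶠ A in 𝓝 (diagonal lam), A.det = 1 →
      ∀ y : Y, (∀ n : ℕ, f (y, (A ^ n, (A ^ n).adjugate)) = 0) →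
      ∀ (u : ℂ) (m : ℕ), f (y, (exp (u • tlPow m A), exp (-(u • tlPow m A)))) = 0 := by
  classical
  let sS : (TIdx r → ℂ) → Mat r := fun v => Matrix.of fun a b => v (.inl (.inl (a, b)))
  let sS' : (TIdx r → ℂ) → Mat r := fun v => Matrix.of fun a b => v (.inl (.inr (a, b)))
  let sT : (TIdx r → ℂ) → Mat r := fun v => diagonal fun i => v (.inr (.inl i))
  let sT' : (TIdx r → ℂ) → Mat r := fun v => diagonal fun i => v (.inr (.inr i))
  have pr : ∀ q : TIdx r, (fun v : TIdx r → ℂ => v q) ∈ PF (TIdx r → ℂ) := fun q =>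
    PF.clm (ContinuousLinearMap.proj (R := ℂ) (φ := fun _ : TIdx r => ℂ) q)
  have pd : ∀ (w : Fin r → TIdx r), PMap (fun v : TIdx r → ℂ => (diagonal fun i => v (w i) : Mat r)) := by
    intro w; refine PMap.mat fun a b => ?_
    by_cases hab : a = b
    · subst hab; simpa using pr (w a)
    · simpa [hab] using PF.const (T := TIdx r → ℂ) 0
  have pS : PMap sS := PMap.mat fun a b => pr _
  have pS' : PMap sS' := PMap.mat fun a b => pr _
  have hmap : PMap (fun v => (sS v * sT v * sS' v, sS v * sT' v * sS' v)) :=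
    ((pS.mul (pd _)).mul pS').prodMk ((pS.mul (pd _)).mul pS')
  obtain ⟨supp, hsupp⟩ := exists_eval_param (PF.comp hf
    (φ := fun q : Y × (TIdx r → ℂ) => (q.1, (sS q.2 * sT q.2 * sS' q.2, sS q.2 * sT' q.2 * sS' q.2)))
    (PMap.fst.prodMk (hmap.comp PMap.snd)))
  let ex : (TIdx r →₀ ℕ) → Fin r → ℤ := fun q i =>
    (q (.inr (.inl i)) : ℤ) - q (.inr (.inr i))
  let mon : (Fin r → ℂ) → (TIdx r →₀ ℕ) → ℂ := fun w q => ∏ i, w i ^ ex q i
  -- open non-resonance condition
  have hgood : ∀ᶠ w in 𝓝 lam, (∀ i, w i ≠ 0) ∧ ∀ q ∈ supp, ∀ q' ∈ supp,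
      mon w q = mon w q' → ∀ i j, ex q i - ex q' i = ex q j - ex q' j := by
    refine eventually_and.2 ⟨eventually_all.2 fun i =>
      (continuous_apply i).continuousAt.eventually_ne (hlam.1 i), ?_⟩
    refine (eventually_all_finset supp).2 fun q hq => (eventually_all_finset supp).2
      fun q' hq' => ?_
    by_cases hc : ∀ i j, ex q i - ex q' i = ex q j - ex q' j
    · exact Eventually.of_forall fun w _ => hc
    · have hne : mon lam q ≠ mon lam q' := by
        intro heq
        refine hc (hlam.2.2 (fun i => ex q i - ex q' i) ?_)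
        simp only [zpow_sub₀ (hlam.1 _), Finset.prod_div_distrib]
        rw [show (∏ i, lam i ^ ex q i) = mon lam q from rfl, heq]
        exact div_self (Finset.prod_ne_zero_iff.2 fun i _ => zpow_ne_zero _ (hlam.1 i))
      have hcont : ∀ e, ContinuousAt (fun w => mon w e) lam := fun e => by
        refine tendsto_finsetProd _ fun i _ => ?_
        exact ((continuous_apply i).continuousAt.tendsto.zpow₀ _ (Or.inl (hlam.1 i)))
      have := ((hcont q).sub (hcont q')).eventually_ne (sub_ne_zero.2 hne)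
      exact this.mono fun w hw h => absurd (sub_eq_zero.2 h) hw
  have hnb : ∀ᶠ p in 𝓝 ((1 : Mat r), lam), IsUnit p.1 ∧ ((∀ i, p.2 i ≠ 0) ∧
      ∀ q ∈ supp, ∀ q' ∈ supp, mon p.2 q = mon p.2 q' →
        ∀ i j, ex q i - ex q' i = ex q j - ex q' j) :=
    (Continuous.continuousAt (f := fun p : Mat r × (Fin r → ℂ) => p.1)
      (x := ((1 : Mat r), lam)) continuous_fst |>.tendsto.eventually
        (p := fun S : Mat r => IsUnit S)
        (Units.isOpen.eventually_mem (show IsUnit (1 : Mat r) from isUnit_one))).and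
      (Continuous.continuousAt (f := fun p : Mat r × (Fin r → ℂ) => p.2)
        (x := ((1 : Mat r), lam)) continuous_snd |>.tendsto.eventually hgood)
  rw [← chart_nhds hinj, eventually_map]
  refine hnb.mono fun p hp hdet y hvan u m => ?_
  obtain ⟨P, hPs, hP⟩ := hsupp y
  obtain ⟨⟨S, hS⟩, hw0, hres⟩ := hp
  obtain ⟨p1, w⟩ := p
  simp only at hS hw0 hres
  subst hS
  set S' : Mat r := ((S⁻¹ : (Mat r)ˣ) : Mat r) with hS'
  have hA : chart ((S : Mat r), w) = (S : Mat r) * diagonal w * S' := by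
    simp [chart, hS']
  rw [hA] at hdet hvan ⊢
  set A : Mat r := (S : Mat r) * diagonal w * S' with hAdef
  -- coordinates at the parameter `(S, S', t, t')`
  let pt : (Fin r → ℂ) → (Fin r → ℂ) → TIdx r → ℂ := fun t t' =>
    Sum.elim (Sum.elim (fun ab => (S : Mat r) ab.1 ab.2) (fun ab => S' ab.1 ab.2)) (Sum.elim t t')
  have hfp : ∀ t t', f (y, ((S : Mat r) * diagonal t * S', (S : Mat r) * diagonal t' * S')) =
      MvPolynomial.eval (pt t t') P := fun t t' => by
    rw [← hP]; rfl
  let coef : (TIdx r →₀ ℕ) → ℂ := fun q => P.coeff q * ∏ x, Sum.elim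
    (fun ab : Fin r × Fin r => (S : Mat r) ab.1 ab.2) (fun ab => S' ab.1 ab.2) x ^ q (.inl x)
  have hsum : ∀ t t' : Fin r → ℂ, (∀ i, t i * t' i = 1) →
      f (y, ((S : Mat r) * diagonal t * S', (S : Mat r) * diagonal t' * S')) =
        ∑ q ∈ supp, coef q * mon t q := by
    intro t t' htt
    rw [hfp, MvPolynomial.eval_eq', Finset.sum_subset hPs (fun q _ hq => by
      rw [MvPolynomial.notMem_support_iff.1 hq, zero_mul])]
    refine Finset.sum_congr rfl fun q _ => ?_
    rw [Fintype.prod_sum_type, ← mul_assoc]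
    congr 1
    rw [Fintype.prod_sum_type, ← Finset.prod_mul_distrib]
    refine Finset.prod_congr rfl fun i _ => ?_
    have ht : t i ≠ 0 := left_ne_zero_of_mul_eq_one (htt i)
    have ht' : t' i = (t i)⁻¹ := eq_inv_of_mul_eq_one_right (htt i)
    simp only [ex, pt, Sum.elim_inr, Sum.elim_inl, ht', zpow_sub₀ ht, zpow_natCast, inv_pow,
      div_eq_mul_inv]
  have hpow : ∀ n : ℕ, A ^ n = (S : Mat r) * diagonal (fun i => w i ^ n) * S' := by
    intro n
    rw [hAdef, hS', Units.conj_pow, diagonal_pow]; rfl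
  have hzero : ∀ n : ℕ, ∑ q ∈ supp, coef q * mon w q ^ n = 0 := by
    intro n
    have hinv : (A ^ n).adjugate = (S : Mat r) * diagonal (fun i => (w i ^ n)⁻¹) * S' := by
      have h1 : (A ^ n) * ((S : Mat r) * diagonal (fun i => (w i ^ n)⁻¹) * S') = 1 := by
        rw [hpow, hS']
        simp only [mul_assoc, Units.inv_mul_cancel_left]
        rw [← mul_assoc (diagonal _) (diagonal _), diagonal_mul_diagonal]
        simp [hw0]
      have h2 : (A ^ n).adjugate * A ^ n = 1 := by
        rw [adjugate_mul, det_pow, hdet]; simp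
      exact left_inv_eq_right_inv h2 h1
    have := hvan n
    rw [hinv, hpow, hsum _ _ (fun i => mul_inv_cancel₀ (pow_ne_zero _ (hw0 i)))] at this
    rw [← this]
    refine Finset.sum_congr rfl fun q _ => ?_
    simp only [mon, ← Finset.prod_pow]
    congr 1
    refine Finset.prod_congr rfl fun i _ => ?_
    rw [← zpow_natCast (w i ^ ex q i), ← zpow_natCast (w i), ← _root_.zpow_mul, ← _root_.zpow_mul, mul_comm]
  let v : Fin r → ℂ := fun i => u * (w i ^ m - (∑ j, w j ^ m) / r)
  have htl : u • tlPow m A = (S : Mat r) * diagonal v * S' := by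
    have htr : (A ^ m).trace = ∑ j, w j ^ m := by
      rw [hpow, hS', Matrix.trace_mul_cycle]; simp [Matrix.trace_diagonal]
    have hd : (diagonal v : Mat r) = u • (diagonal (fun i => w i ^ m) -
        ((∑ j, w j ^ m) / (r:ℂ)) • (1 : Mat r)) := by
      ext i j; by_cases hij : i = j
      · subst hij; simp [v, mul_comm, mul_sub]
      · simp [hij]
    rw [tlPow, htr, hd, hpow, hS']
    simp [mul_sub, sub_mul]
  have hexp : ∀ x : Fin r → ℂ, exp ((S : Mat r) * diagonal x * S') =
      (S : Mat r) * diagonal (fun i => Complex.exp (x i)) * S' := by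
    intro x
    rw [hS', Matrix.exp_units_conj, Matrix.exp_diagonal]
    congr 3
    funext i
    simp [Complex.exp_eq_exp_ℂ]
  have hneg : -(u • tlPow m A) = (S : Mat r) * diagonal (fun i => -v i) * S' := by
    rw [htl, show (diagonal fun i => -v i : Mat r) = -diagonal v from (diagonal_neg v).symm,
      mul_neg, neg_mul]
  rw [hneg, htl, hexp, hexp, hsum _ _ (fun i => by rw [← Complex.exp_add]; simp)]
  refine exp_sum_vanish _ coef _ _ hzero fun q hq q' hq' hqq => ?_
  have hr := hres q hq q' hq' hqq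
  have key : ∀ e : TIdx r →₀ ℕ, mon (fun i => Complex.exp (v i)) e =
      Complex.exp (∑ i, (ex e i : ℂ) * v i) := fun e => by
    simp only [mon, Complex.exp_sum, Complex.exp_int_mul]
  rw [key, key]
  congr 1
  rw [← sub_eq_zero, ← Finset.sum_sub_distrib]
  rcases Nat.eq_zero_or_pos r with h0 | hpos
  · subst h0; simp
  · have hv : ∑ i, v i = 0 := by
      have : (r : ℂ) ≠ 0 := by exact_mod_cast hpos.ne'
      simp only [v, ← Finset.mul_sum, Finset.sum_sub_distrib, Finset.sum_const, Finset.card_univ,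
        Fintype.card_fin, nsmul_eq_mul]
      field_simp
      ring
    calc ∑ i, ((ex q i : ℂ) * v i - (ex q' i : ℂ) * v i)
        = ∑ i, ((ex q ⟨0, hpos⟩ - ex q' ⟨0, hpos⟩ : ℤ) : ℂ) * v i := by
          refine Finset.sum_congr rfl fun i _ => ?_
          rw [← hr i ⟨0, hpos⟩]; push_cast; ring
      _ = 0 := by rw [← Finset.mul_sum, hv, mul_zero]

end Vale.Agent.P002.Surface
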