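import Vale.Agent.P002.Surface.Mirror
import Vale.Agent.P002.Surface.Twist

/-! Complex twist flows preserve the closure. -/

open Matrix Filter Topology NormedSpace

namespace Vale.Agent.P002.Surface

attribute [local instance] Matrix.linftyOpNormedAddCommGroup Matrix.linftyOpNormedSpace
  Matrix.linftyOpNormedRing Matrix.linftyOpNormedAlgebra

variable {r h : ℕ}

/-- A twist: a word `word x` and a substitution `act x k k'`, valid when `k` commutes with it. -/
structure Move (h r : ℕ) where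
  word : Tup (h + 2) r → Mat r
  act : Tup (h + 2) r → Mat r → Mat r → Tup (h + 2) r
  pword : PMap word
  pact : PMap (fun q : Tup (h + 2) r × (Mat r × Mat r) => act q.1 q.2.1 q.2.2)
  word_det : ∀ x ∈ Hom (h + 2) r, (word x).det = 1
  word_int : ∀ x, IntTup x → IntMat (word x)
  act_hom : ∀ x ∈ Hom (h + 2) r, ∀ k k', k.det = 1 → k' = k.adjugate →
    k * word x = word x * k → act x k k' ∈ Hom (h + 2) r
  act_int : ∀ x k k', IntTup x → IntMat k → IntMat k' → IntTup (act x k k')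
  act_one : ∀ x ∈ Hom (h + 2) r, act x 1 1 = x
  wit : ∀ A : Mat r, A.det = 1 → ∃ a b : Mat r, a.det = 1 ∧ b.det = 1 ∧ word (Mir h a b) = A

/-- The mirror family. -/
def MirSet (h r : ℕ) : Set (Tup (h + 2) r) :=
  {x | ∃ a b : Mat r, a.det = 1 ∧ b.det = 1 ∧ x = Mir h a b}

/-- A flow that preserves the closure along curves through some mirror tuple. -/
def Nice (Ψ : ℂ → Tup (h + 2) r → Tup (h + 2) r) : Prop :=
  ContDiff ℂ 1 (fun q : ℂ × Tup (h + 2) r => Ψ q.1 q.2) ∧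
  (∀ x ∈ Hom (h + 2) r, Ψ 0 x = x) ∧
  ∃ w ∈ MirSet h r, ∀ x : ℂ → Tup (h + 2) r, ContDiff ℂ 1 x → (∀ z, x z ∈ Cl (h + 2) r) →
    x 0 = w → ∀ u z, Ψ u (x z) ∈ Cl (h + 2) r

lemma contDiff_mexp : ContDiff ℂ 1 (exp : Mat r → Mat r) :=
  contDiff_iff_contDiffAt.2 fun x => (exp_analytic (𝕂 := ℂ) x).contDiffAt

/-- The one-parameter flow of a move. -/
noncomputable def Move.flow (M : Move h r) (m : ℕ) (u : ℂ) (x : Tup (h + 2) r) :
    Tup (h + 2) r :=
  M.act x (exp (u • tlPow m (M.word x))) (exp (-(u • tlPow m (M.word x))))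

lemma PMap.tlPow {T : Type*} [NormedAddCommGroup T] [NormedSpace ℂ T] {φ : T → Mat r}
    (hφ : PMap φ) (m : ℕ) : PMap (fun t => Surface.tlPow m (φ t)) := by
  have : (fun t => Surface.tlPow m (φ t)) =
      fun t => φ t ^ m + (-1 / (r : ℂ)) • (∑ i, (φ t ^ m) i i • (1 : Mat r)) := by
    funext t
    rw [Surface.tlPow, Matrix.trace, ← Finset.sum_smul, smul_smul, sub_eq_add_neg, ← neg_smul]
    congr 2
    simp [Matrix.diag]; ring
  rw [this]
  refine (hφ.mpow m).add (PMap.smul _ (PMap.sum _ _ fun i _ => ?_))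
  intro l
  simp only [map_smul, smul_eq_mul]
  exact (PF T).mul_mem ((hφ.mpow m).entry i i) (PF.const _)

lemma Move.flow_contDiff (M : Move h r) (m : ℕ) :
    ContDiff ℂ 1 (fun q : ℂ × Tup (h + 2) r => M.flow m q.1 q.2) := by
  have h1 : ContDiff ℂ 1 (fun q : ℂ × Tup (h + 2) r => q.1 • Surface.tlPow m (M.word q.2)) :=
    contDiff_fst.smul ((M.pword.tlPow m).contDiff.comp contDiff_snd)
  exact M.pact.contDiff.comp
    (contDiff_snd.prodMk ((contDiff_mexp.comp h1).prodMk (contDiff_mexp.comp h1.neg)))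

lemma Generic.det {lam : Fin r → ℂ} (hl : Generic lam) : (diagonal lam).det = 1 := by
  rw [det_diagonal, hl.2.1]

lemma exists_generic (r : ℕ) :
    ∃ lam : Fin r → ℂ, Generic lam ∧ ∀ i j, lam i = lam j → i = j := by
  obtain ⟨ξ, hξ⟩ : ∃ ξ : ℝ, Transcendental ℤ ξ :=
    ⟨_, transcendental_liouvilleNumber (m := 2) le_rfl⟩
  let c : ℝ := (∑ k : Fin r, ξ ^ (k : ℕ)) / r
  let e : Fin r → ℝ := fun i => ξ ^ (i : ℕ) - c
  have hpow : ∀ z : Fin r → ℤ, ∑ i, (z i : ℝ) * ξ ^ (i : ℕ) = 0 → ∀ i, z i = 0 := by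
    intro z hz i
    let P : Polynomial ℤ := ∑ i, Polynomial.C (z i) * Polynomial.X ^ (i : ℕ)
    have hP : P = 0 := by
      by_contra hne
      exact hξ ⟨P, hne, by simpa [P] using hz⟩
    have := congrArg (fun Q : Polynomial ℤ => Q.coeff i) hP
    simpa [P, Polynomial.finsetSum_coeff, Polynomial.coeff_C_mul_X_pow, Fin.val_inj] using this
  have hsum : ∑ i, e i = 0 := by
    rcases Nat.eq_zero_or_pos r with h0 | h0
    · subst h0; simp
    · have : (r : ℝ) ≠ 0 := by exact_mod_cast h0.ne'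
      simp only [e, c, Finset.sum_sub_distrib, Finset.sum_const, Finset.card_univ,
        Fintype.card_fin, nsmul_eq_mul]
      field_simp
      ring
  refine ⟨fun i => (Real.exp (e i) : ℂ), ⟨fun i => ?_, ?_, fun z hz => ?_⟩, fun i j hij => ?_⟩
  · exact Complex.ofReal_ne_zero.2 (Real.exp_pos _).ne'
  · rw [← Complex.ofReal_prod, ← Real.exp_sum, hsum]; simp
  · have h1 : ∑ i, (z i : ℝ) * e i = 0 := by
      have h2 : Real.exp (∑ i, (z i : ℝ) * e i) = 1 := by
        rw [Real.exp_sum]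
        have : ((∏ i, Real.exp (e i) ^ z i : ℝ) : ℂ) = ((1 : ℝ) : ℂ) := by
          rw [Complex.ofReal_prod, Complex.ofReal_one, ← hz]
          exact Finset.prod_congr rfl fun i _ => by simp
        have h4 : ∀ i, Real.exp ((z i : ℝ) * e i) = Real.exp (e i) ^ z i := fun i => by
          rw [mul_comm, Real.exp_mul, Real.rpow_intCast]
        rw [Finset.prod_congr rfl fun i _ => h4 i]
        exact Complex.ofReal_injective this
      exact (Real.exp_eq_one_iff _).1 h2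
    intro i j
    rcases Nat.eq_zero_or_pos r with h0 | h0
    · subst h0; exact i.elim0
    · have hr : (r : ℝ) ≠ 0 := by exact_mod_cast h0.ne'
      have h3 : ∑ i, (((r : ℤ) * z i - ∑ k, z k : ℤ) : ℝ) * ξ ^ (i : ℕ) = 0 := by
        simp only [e, c, mul_sub, Finset.sum_sub_distrib, ← Finset.sum_mul] at h1
        push_cast
        simp only [sub_mul, Finset.sum_sub_distrib, mul_assoc, ← Finset.mul_sum]
        field_simp at h1
        linarith
      have hi := hpow _ h3 i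
      have hj := hpow _ h3 j
      have : (r : ℤ) * z i = r * z j := by linarith
      exact mul_left_cancel₀ (by exact_mod_cast h0.ne') this
  · have h1 : ξ ^ (i : ℕ) = ξ ^ (j : ℕ) := by
      have : e i = e j := Real.exp_injective (Complex.ofReal_injective hij)
      simpa [e] using this
    by_contra hne
    have := hpow (fun k => (if k = i then 1 else 0) - if k = j then 1 else 0)
      (by simp [sub_mul, Finset.sum_sub_distrib, h1]) i
    simp [hne] at this

lemma det_exp_of_flow {lam : Fin r → ℂ} (hl : Generic lam) (hinj : ∀ i j, lam i = lam j → i = j) :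
    ∀ᶠ A in 𝓝 (diagonal lam), A.det = 1 → ∀ (u : ℂ) (m : ℕ),
      (exp (u • tlPow m A)).det = 1 := by
  have hf : (fun q : ℂ × (Mat r × Mat r) => q.2.1.det - 1) ∈ PF (ℂ × (Mat r × Mat r)) :=
    (PF _).sub_mem (PMap.det' fun a b => (PMap.fst.comp PMap.snd).entry a b) (PF.const 1)
  refine (torus_vanish hl hinj hf).mono fun A hA hd u m => ?_
  have := hA hd 0 (fun n => by simp [det_pow, hd]) u m
  simpa [sub_eq_zero] using this

lemma Move.nice (M : Move h r) (m : ℕ) : Nice (M.flow m) := by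
  refine ⟨M.flow_contDiff m, fun x hx => by simp [Move.flow, exp_zero, M.act_one x hx], ?_⟩
  obtain ⟨lam, hl, hinj⟩ := exists_generic r
  obtain ⟨a, b, ha, hb, hab⟩ := M.wit _ hl.det
  refine ⟨Mir h a b, ⟨a, b, ha, hb, rfl⟩, fun x hx hcl hx0 u z => ?_⟩
  intro f hf hvan
  let F : ℂ → ℂ := fun w => f (M.flow m u (x w))
  have hF : Differentiable ℂ F :=
    ((PF.contDiff hf).comp ((M.flow_contDiff m).comp (contDiff_const.prodMk hx))).differentiable
      one_ne_zero
  have hev : ∀ᶠ w in 𝓝 (0 : ℂ), F w = 0 := by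
    have hf' : (fun q : Tup (h + 2) r × (Mat r × Mat r) => f (M.act q.1 q.2.1 q.2.2)) ∈
        PF (Tup (h + 2) r × (Mat r × Mat r)) := PF.comp hf M.pact
    have hc : Tendsto (fun w => M.word (x w)) (𝓝 0) (𝓝 (diagonal lam)) := by
      have h' : Continuous (fun w => M.word (x w)) := (M.pword.contDiff.comp hx).continuous
      have := h'.tendsto 0
      rwa [hx0, hab] at this
    filter_upwards [hc.eventually (torus_vanish hl hinj hf')] with w hw
    refine hw (M.word_det _ (Cl.subset_hom (hcl w))) (x w) (fun n => ?_) u m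
    have hφ : PMap (fun y : Tup (h + 2) r => M.act y (M.word y ^ n) ((M.word y ^ n).adjugate)) :=
      M.pact.comp (PMap.id'.prodMk ((M.pword.mpow n).prodMk (M.pword.mpow n).adjugate))
    exact hcl w (fun y => f (M.act y (M.word y ^ n) ((M.word y ^ n).adjugate))) (PF.comp hf hφ)
      fun y hy hi => hvan _
        (M.act_hom y hy _ _ (by rw [det_pow, M.word_det y hy, one_pow]) rfl
          ((Commute.refl _).pow_left n))
        (M.act_int y _ _ hi ((M.word_int y hi).pow n) ((M.word_int y hi).pow n).adjugate)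
  have := (show AnalyticOnNhd ℂ F Set.univ from fun w _ =>
    hF.analyticAt w).eqOn_zero_of_preconnected_of_eventuallyEq_zero
    isPreconnected_univ (Set.mem_univ (0 : ℂ)) hev (Set.mem_univ z)
  exact this

/-- A symmetry of the closure and of the mirror family. -/
structure Symm (h r : ℕ) where
  fwd : Tup (h + 2) r → Tup (h + 2) r
  bwd : Tup (h + 2) r → Tup (h + 2) r
  pfwd : PMap fwd
  pbwd : PMap bwd
  fwd_hom : ∀ y ∈ Hom (h + 2) r, fwd y ∈ Hom (h + 2) r
  bwd_hom : ∀ y ∈ Hom (h + 2) r, bwd y ∈ Hom (h + 2) r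
  fwd_int : ∀ y, IntTup y → IntTup (fwd y)
  bwd_int : ∀ y, IntTup y → IntTup (bwd y)
  fwd_bwd : ∀ y ∈ Hom (h + 2) r, fwd (bwd y) = y
  bwd_fwd : ∀ y ∈ Hom (h + 2) r, bwd (fwd y) = y
  fwd_mir : ∀ y ∈ MirSet h r, fwd y ∈ MirSet h r

lemma MirSet.subset_cl {y : Tup (h + 2) r} (hy : y ∈ MirSet h r) : y ∈ Cl (h + 2) r := by
  obtain ⟨a, b, ha, hb, rfl⟩ := hy; exact Mir_mem_cl ha hb

lemma Nice.conj {Ψ : ℂ → Tup (h + 2) r → Tup (h + 2) r} (hΨ : Nice Ψ) (φ : Symm h r) :
    Nice (fun u x => φ.fwd (Ψ u (φ.bwd x))) := by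
  obtain ⟨hc, h0, w, hw, hp⟩ := hΨ
  refine ⟨φ.pfwd.contDiff.comp (hc.comp (contDiff_fst.prodMk (φ.pbwd.contDiff.comp contDiff_snd))),
    fun x hx => by show φ.fwd _ = x; rw [h0 _ (φ.bwd_hom x hx), φ.fwd_bwd x hx],
    φ.fwd w, φ.fwd_mir w hw, fun x hx hcl hx0 u z => ?_⟩
  refine Cl.image φ.pfwd (fun y hy hi => ⟨φ.fwd_hom y hy, φ.fwd_int y hi⟩) ?_
  refine hp (fun z => φ.bwd (x z)) (φ.pbwd.contDiff.comp hx)
    (fun z => Cl.image φ.pbwd (fun y hy hi => ⟨φ.bwd_hom y hy, φ.bwd_int y hi⟩) (hcl z)) ?_ u z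
  show φ.bwd (x 0) = w
  rw [hx0, φ.bwd_fwd w (Cl.subset_hom (MirSet.subset_cl hw))]

/-- Compose a list of flows at times `t`. -/
def compose : (n : ℕ) → (Fin n → ℂ → Tup (h + 2) r → Tup (h + 2) r) → (Fin n → ℂ) →
    Tup (h + 2) r → Tup (h + 2) r
  | 0, _, _, x => x
  | n + 1, Ψ, t, x => Ψ 0 (t 0) (compose n (fun i => Ψ i.succ) (fun i => t i.succ) x)

lemma compose_contDiff : ∀ (n : ℕ) (Ψ : Fin n → ℂ → Tup (h + 2) r → Tup (h + 2) r),
    (∀ i, Nice (Ψ i)) →
    ContDiff ℂ 1 (fun q : (Fin n → ℂ) × Tup (h + 2) r => compose n Ψ q.1 q.2)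
  | 0, _, _ => contDiff_snd
  | n + 1, Ψ, hΨ => by
    have ih := compose_contDiff n (fun i => Ψ i.succ) fun i => hΨ i.succ
    have ht : ContDiff ℂ 1 (fun q : (Fin (n + 1) → ℂ) × Tup (h + 2) r =>
        (fun i : Fin n => q.1 i.succ)) :=
      contDiff_pi.2 fun i => (contDiff_apply ℂ ℂ i.succ).comp contDiff_fst
    exact (hΨ 0).1.comp (((contDiff_apply ℂ ℂ (0 : Fin (n + 1))).comp contDiff_fst).prodMk
      (ih.comp (ht.prodMk contDiff_snd)))

lemma compose_zero : ∀ (n : ℕ) (Ψ : Fin n → ℂ → Tup (h + 2) r → Tup (h + 2) r),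
    (∀ i, Nice (Ψ i)) → ∀ x ∈ Hom (h + 2) r, compose n Ψ 0 x = x
  | 0, _, _, _, _ => rfl
  | n + 1, Ψ, hΨ, x, hx => by
    show Ψ 0 0 (compose n (fun i => Ψ i.succ) 0 x) = x
    rw [compose_zero n _ (fun i => hΨ i.succ) x hx, (hΨ 0).2.1 x hx]

lemma compose_single : ∀ (n : ℕ) (Ψ : Fin n → ℂ → Tup (h + 2) r → Tup (h + 2) r),
    (∀ i, Nice (Ψ i)) → ∀ (i : Fin n) (u : ℂ) (x : Tup (h + 2) r), x ∈ Hom (h + 2) r →
      Ψ i u x ∈ Hom (h + 2) r → compose n Ψ (Pi.single i u) x = Ψ i u x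
  | 0, _, _, i, _, _, _, _ => i.elim0
  | n + 1, Ψ, hΨ, i, u, x, hx, hux => by
    refine Fin.cases ?_ (fun j => ?_) i hux
    · intro _
      show Ψ 0 _ (compose n (fun i => Ψ i.succ) _ x) = Ψ 0 u x
      have e : (fun i : Fin n => Pi.single (M := fun _ : Fin (n + 1) => ℂ) 0 u i.succ) = 0 :=
        funext fun i => Pi.single_eq_of_ne (Fin.succ_ne_zero i) u
      rw [Pi.single_eq_same, e,
        compose_zero n _ (fun i => hΨ i.succ) x hx]
    · intro hj
      show Ψ 0 _ (compose n (fun i => Ψ i.succ) _ x) = Ψ j.succ u x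
      have e : (fun k : Fin n => Pi.single (M := fun _ : Fin (n + 1) => ℂ) j.succ u k.succ) =
          Pi.single (M := fun _ : Fin n => ℂ) j u := by
        funext k; simp [Pi.single_apply, Fin.succ_inj]
      rw [e, compose_single n _ (fun i => hΨ i.succ) j u x hx hj,
        Pi.single_eq_of_ne (Fin.succ_ne_zero j).symm, (hΨ 0).2.1 _ hj]

lemma compose_mem_cl : ∀ (n : ℕ) (Ψ : Fin n → ℂ → Tup (h + 2) r → Tup (h + 2) r),
    (∀ i, Nice (Ψ i)) → ∀ y ∈ MirSet h r, ∀ t, compose n Ψ t y ∈ Cl (h + 2) r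
  | 0, _, _, y, hy, _ => MirSet.subset_cl hy
  | n + 1, Ψ, hΨ, y, hy, t => by
    obtain ⟨hc, -, w, hw, hp⟩ := hΨ 0
    obtain ⟨a, b, ha, hb, rfl⟩ := hy
    obtain ⟨a', b', ha', hb', rfl⟩ := hw
    obtain ⟨ca, hca, hcad, hca0, hca1⟩ := exists_curve ha' ha
    obtain ⟨cb, hcb, hcbd, hcb0, hcb1⟩ := exists_curve hb' hb
    let rest := compose n (fun i => Ψ i.succ)
    let line : ℂ → Tup (h + 2) r := fun z =>
      rest (z • fun i => t i.succ) (Mir h (ca z) (cb z))
    have hmir : ContDiff ℂ 1 (fun z => Mir h (ca z) (cb z)) :=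
      (PMap.mir (T := Mat r × Mat r) PMap.fst PMap.snd).contDiff.comp (hca.prodMk hcb)
    have hline : ContDiff ℂ 1 line := (compose_contDiff n _ fun i => hΨ i.succ).comp
      ((contDiff_id.smul contDiff_const).prodMk hmir)
    have h0 : line 0 = Mir h a' b' := by
      simp only [line, rest, zero_smul, hca0, hcb0]
      exact compose_zero n _ (fun i => hΨ i.succ) _ (Mir_mem_hom ha' hb')
    have := hp line hline (fun z => compose_mem_cl n _ (fun i => hΨ i.succ) _
      ⟨_, _, hcad z, hcbd z, rfl⟩ _) h0 (t 0) 1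
    show Ψ 0 (t 0) (rest (fun i => t i.succ) (Mir h a b)) ∈ Cl (h + 2) r
    simpa [line, hca1, hcb1] using this

end Vale.Agent.P002.Surface
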