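import Vale.Agent.P002.Surface.Defs

/-! The composed flows parametrise a neighbourhood of the mirror tuple in the representation
space. -/

open Matrix Filter Topology

namespace Vale.Agent.P002.Surface

attribute [local instance] Matrix.linftyOpNormedAddCommGroup Matrix.linftyOpNormedSpace
  Matrix.linftyOpNormedRing Matrix.linftyOpNormedAlgebra

variable {r h : ℕ}

/-- A polynomial function as a polynomial map. -/
lemma PF.pmap {T : Type*} [NormedAddCommGroup T] [NormedSpace ℂ T] {f : T → ℂ} (hf : f ∈ PF T) :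
    PMap f := by
  intro l
  have : (fun x => l (f x)) = (fun _ => l 1) * f := by
    funext x
    rw [Pi.mul_apply, mul_comm, ← smul_eq_mul, ← map_smul, smul_eq_mul, mul_one]
  rw [this]; exact (PF T).mul_mem (PF.const _) hf

lemma hasDerivAt_det_one_add (Y : Mat r) :
    HasDerivAt (fun z : ℂ => (1 + z • Y).det) Y.trace 0 := by
  set q := (det (1 + (Polynomial.X : Polynomial ℂ) • Y.map Polynomial.C)).divX.divX
  have e : (fun z : ℂ => (1 + z • Y).det) = fun z => 1 + Y.trace * z + q.eval z * z ^ 2 :=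
    funext fun z => Matrix.det_one_add_smul z Y
  rw [e]
  simpa using ((hasDerivAt_id (0 : ℂ)).const_mul Y.trace).const_add 1 |>.fun_add
    ((q.hasDerivAt (0 : ℂ)).fun_mul (hasDerivAt_pow 2 (0 : ℂ)))

lemma hasDerivAt_line (P Y : Mat r) :
    HasDerivAt (fun z : ℂ => P * (1 + z • Y)) (P * Y) 0 := by
  have := ((hasDerivAt_id (0 : ℂ)).smul_const Y).const_add (1 : Mat r) |>.const_mul P
  simp only [id, one_smul] at this
  exact this

lemma hasDerivAt_adjugate_line (P : Mat r) {Y : Mat r} (hY : Y.trace = 0) :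
    HasDerivAt (fun z : ℂ => (P * (1 + z • Y)).adjugate) (-(Y * P.adjugate)) 0 := by
  have h1 : HasDerivAt (fun z : ℂ => (1 : Mat r) + z • Y) Y 0 := by
    simpa using hasDerivAt_line (1 : Mat r) Y
  have hc : ContDiff ℂ 1 (fun z : ℂ => ((1 : Mat r) + z • Y).adjugate) :=
    ((PMap.id' (T := Mat r)).adjugate.contDiff).comp
      (contDiff_const.add (contDiff_id.smul contDiff_const))
  obtain ⟨d, hd⟩ : ∃ d, HasDerivAt (fun z : ℂ => ((1 : Mat r) + z • Y).adjugate) d 0 :=
    ⟨_, ((hc.differentiable one_ne_zero) 0).hasDerivAt⟩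
  have hp : HasDerivAt (fun z : ℂ => ((1 : Mat r) + z • Y).det • (1 : Mat r)) (Y + d) 0 := by
    have := h1.fun_mul hd
    simp only [mul_adjugate, zero_smul, add_zero, adjugate_one, mul_one, one_mul] at this
    exact this
  have hq : HasDerivAt (fun z : ℂ => ((1 : Mat r) + z • Y).det • (1 : Mat r)) (0 : Mat r) 0 := by
    have := (hasDerivAt_det_one_add Y).smul_const (1 : Mat r)
    simp only [hY, zero_smul] at this
    exact this
  have hde : d = -Y := eq_neg_of_add_eq_zero_right (hp.unique hq)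
  have := hd.mul_const P.adjugate
  simp only [hde, neg_mul] at this
  simp only [adjugate_mul_distrib]
  exact this

lemma adjugate_mul_adjugate {ω : ℂ} {a b : Mat r} (ha : a.det = 1) (hb : b.det = 1)
    (hab : a * b = ω • (b * a)) : a.adjugate * b.adjugate = ω • (b.adjugate * a.adjugate) := by
  refine left_inv_eq_right_inv (a := b * a) ?_ ?_
  · rw [mul_assoc, ← mul_assoc _ b, adj_mul hb, one_mul, adj_mul ha]
  · rw [mul_smul_comm, ← smul_mul_assoc, ← hab, mul_assoc, ← mul_assoc b, mul_adj hb, one_mul,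
      mul_adj ha]

lemma mul_adjugate_twisted {ω : ℂ} {a b : Mat r} (ha : a.det = 1)
    (hab : a * b = ω • (b * a)) : b * a.adjugate = ω • (a.adjugate * b) := by
  calc b * a.adjugate = a.adjugate * (a * b) * a.adjugate := by
        rw [← mul_assoc, adj_mul ha, one_mul]
    _ = ω • (a.adjugate * b) := by
        rw [hab, mul_smul_comm, smul_mul_assoc, mul_assoc, mul_assoc, mul_adj ha, mul_one]

/-- The derivative of the commutator at a pair with scalar commutator. -/
lemma hasDerivAt_comm {ω : ℂ} {a b : Mat r} (ha : a.det = 1) (hb : b.det = 1)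
    (hab : a * b = ω • (b * a)) {Y : Mat r × Mat r} (h1 : Y.1.trace = 0) (h2 : Y.2.trace = 0) :
    HasDerivAt (fun z : ℂ => comm (a * (1 + z • Y.1), b * (1 + z • Y.2))) (ω • delta a b Y) 0 ∧
      comm (a, b) = ω • (1 : Mat r) := by
  have e1 : b * a.adjugate = ω • (a.adjugate * b) := mul_adjugate_twisted ha hab
  have e2 : a.adjugate * b.adjugate = ω • (b.adjugate * a.adjugate) := adjugate_mul_adjugate ha hb hab
  have e3 : a * b * a.adjugate = ω • b := by
    rw [hab, smul_mul_assoc, mul_assoc, mul_adj ha, mul_one]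
  refine ⟨?_, ?_⟩
  · have := (((hasDerivAt_line a Y.1).fun_mul (hasDerivAt_line b Y.2)).fun_mul
      (hasDerivAt_adjugate_line a h1)).fun_mul (hasDerivAt_adjugate_line b h2)
    refine this.congr_deriv ?_
    simp only [zero_smul, add_zero, mul_one, add_mul, mul_neg, neg_mul]
    have t1 : a * Y.1 * b * a.adjugate * b.adjugate = ω • (a * Y.1 * a.adjugate) := by
      rw [mul_assoc (a * Y.1) b, e1, mul_smul_comm, smul_mul_assoc, ← mul_assoc, mul_assoc _ b,
        mul_adj hb, mul_one]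
    have t2 : a * (b * Y.2) * a.adjugate * b.adjugate =
        ω • (a * b * Y.2 * (b.adjugate * a.adjugate)) := by
      rw [mul_assoc _ a.adjugate, e2, mul_smul_comm, ← mul_assoc a b]
    have t3 : a * b * (Y.1 * a.adjugate) * b.adjugate =
        ω • (a * b * Y.1 * (b.adjugate * a.adjugate)) := by
      rw [← mul_assoc (a * b), mul_assoc _ a.adjugate, e2, mul_smul_comm]
    have t4 : a * b * a.adjugate * (Y.2 * b.adjugate) = ω • (b * Y.2 * b.adjugate) := by
      rw [e3, smul_mul_assoc, ← mul_assoc]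
    rw [t1, t2, t3, t4, delta, adjugate_mul_distrib]
    simp only [smul_add, smul_sub]
    abel
  · show a * b * a.adjugate * b.adjugate = _
    rw [e3, smul_mul_assoc, mul_adj hb]

lemma hasDerivAt_listProd : ∀ L : List (ℂ → Mat r),
    (∀ f ∈ L, HasDerivAt f 0 0 ∧ f 0 = 1) →
      HasDerivAt (fun z => (L.map fun f => f z).prod) 0 0 ∧ (L.map fun f => f 0).prod = 1
  | [], _ => ⟨hasDerivAt_const (0 : ℂ) (1 : Mat r), rfl⟩
  | f :: L, hL => by
    obtain ⟨hd, h1⟩ := hasDerivAt_listProd L fun g hg => hL g (List.mem_cons_of_mem _ hg)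
    obtain ⟨fd, f1⟩ := hL f List.mem_cons_self
    exact ⟨(fd.fun_mul hd).congr_deriv (by simp), by simp [f1, h1]⟩

/-- The linearised relation at the mirror tuple. -/
lemma hasDerivAt_rel {ω : ℂ} {A B : Mat r} (hW : Weyl ω A B) (hr : r ≠ 0)
    (Y : Tup (h + 2) r) (hY : ∀ i, (Y i).1.trace = 0 ∧ (Y i).2.trace = 0) :
    HasDerivAt (fun z : ℂ => rel (Mir h A B + z • vec (Mir h A B) Y))
      (delta A B (Y 0) + delta B A (Y 1)) 0 := by
  obtain ⟨hω, hA, hB, hAB, -, -⟩ := hW
  have hω0 : ω ≠ 0 := hω.ne_zero hr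
  have hBA : B * A = ω⁻¹ • (A * B) := by rw [hAB, inv_smul_smul₀ hω0]
  have slot : ∀ (P : Mat r) (y : Mat r) (z : ℂ), P + z • (P * y) = P * (1 + z • y) := by
    intro P y z; rw [mul_add, mul_one, mul_smul_comm]
  obtain ⟨d0, v0⟩ := hasDerivAt_comm hA hB hAB (hY 0).1 (hY 0).2
  obtain ⟨d1, v1⟩ := hasDerivAt_comm hB hA hBA (hY 1).1 (hY 1).2
  let L : List (ℂ → Mat r) := List.ofFn fun j : Fin h =>
    fun z : ℂ => comm ((1 : Mat r) * (1 + z • (Y j.succ.succ).1), 1 * (1 + z • (Y j.succ.succ).2))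
  obtain ⟨dR, vR⟩ := hasDerivAt_listProd L (by
    intro f hf
    obtain ⟨j, rfl⟩ := (List.mem_ofFn' _ _).1 hf
    obtain ⟨dj, -⟩ := hasDerivAt_comm (a := (1 : Mat r)) (b := 1) det_one det_one
      (ω := 1) (by simp) (hY j.succ.succ).1 (hY j.succ.succ).2
    exact ⟨by simpa [delta] using dj, by simp [comm]⟩)
  have e : (fun z : ℂ => rel (Mir h A B + z • vec (Mir h A B) Y)) = fun z =>
      comm (A * (1 + z • (Y 0).1), B * (1 + z • (Y 0).2)) *
        (comm (B * (1 + z • (Y 1).1), A * (1 + z • (Y 1).2)) * (L.map fun f => f z).prod) := by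
    funext z
    rw [rel_split]
    simp only [L, List.map_ofFn, Function.comp_def, Pi.add_apply, Pi.smul_apply, vec, Mir_zero,
      Mir_one, Mir_succ, Prod.smul_mk, Prod.mk_add_mk, slot]
  rw [e]
  refine (d0.fun_mul (d1.fun_mul dR)).congr_deriv ?_
  simp [v0, v1, vR, hω0, mul_one, smul_smul]

/-- The equations cutting out `Hom`. -/
def eqn {g : ℕ} (x : Tup g r) : (Fin g → ℂ × ℂ) × Mat r :=
  (fun i => ((x i).1.det, (x i).2.det), rel x)

lemma PMap.eqn {g : ℕ} : PMap (fun x : Tup g r => Surface.eqn x) := by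
  refine PMap.prodMk (φ := fun x : Tup g r => fun i => ((x i).1.det, (x i).2.det))
    (PMap.pi fun i => ?_) PMap.rel
  exact (PF.pmap (PMap.det' fun a b => (PMap.slot1 i).entry a b)).prodMk
    (PF.pmap (PMap.det' fun a b => (PMap.slot2 i).entry a b))

lemma eqn_hom {g : ℕ} {x : Tup g r} (hx : x ∈ Hom g r) : eqn x = (fun _ => (1, 1), 1) := by
  simp only [eqn, hx.2, (hx.1 _).1, (hx.1 _).2]

/-- The kernel of the derivative of the equations consists of linearised solutions. -/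
lemma tan_of_ker {ω : ℂ} {A B : Mat r} (hW : Weyl ω A B) (hr : r ≠ 0)
    {F' : Tup (h + 2) r →L[ℂ] (Fin (h + 2) → ℂ × ℂ) × Mat r}
    (hF : HasFDerivAt (fun x : Tup (h + 2) r => eqn x) F' (Mir h A B))
    {w : Tup (h + 2) r} (hw : F' w = 0) : ∃ Y, Tan A B Y ∧ w = vec (Mir h A B) Y := by
  have hp : Mir h A B ∈ Hom (h + 2) r := Mir_mem_hom hW.2.1 hW.2.2.1
  set p := Mir h A B with hpdef
  let Y : Tup (h + 2) r := fun i => ((p i).1.adjugate * (w i).1, (p i).2.adjugate * (w i).2)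
  have hwY : w = vec p Y := by
    funext i
    simp only [vec, Y, ← mul_assoc, mul_adj (hp.1 i).1, mul_adj (hp.1 i).2, one_mul]
  have hline : HasDerivAt (fun z : ℂ => p + z • w) w 0 := by
    have := ((hasDerivAt_id (0 : ℂ)).smul_const w).const_add p
    simp only [id, one_smul] at this
    exact this
  have hFw : HasDerivAt (fun z : ℂ => eqn (p + z • w)) 0 0 := by
    have h0 : HasFDerivAt (fun x : Tup (h + 2) r => eqn x) F' (p + (0 : ℂ) • w) := by simpa using hF
    have := h0.comp_hasDerivAt (0 : ℂ) hline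
    exact this.congr_deriv hw
  have hdet := ((ContinuousLinearMap.fst ℂ (Fin (h + 2) → ℂ × ℂ) (Mat r)).hasFDerivAt.comp_hasDerivAt
    (0 : ℂ) hFw)
  have hrel := ((ContinuousLinearMap.snd ℂ (Fin (h + 2) → ℂ × ℂ) (Mat r)).hasFDerivAt.comp_hasDerivAt
    (0 : ℂ) hFw)
  have slot : ∀ (P : Mat r) (y : Mat r) (z : ℂ), P + z • (P * y) = P * (1 + z • y) := by
    intro P y z; rw [mul_add, mul_one, mul_smul_comm]
  have hY : ∀ i, (Y i).1.trace = 0 ∧ (Y i).2.trace = 0 := by
    intro i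
    have hi := hasDerivAt_pi.1 hdet i
    constructor
    · have := (ContinuousLinearMap.fst ℂ ℂ ℂ).hasFDerivAt.comp_hasDerivAt (0 : ℂ) hi
      have e : ∀ z : ℂ, ((p + z • w) i).1.det = (1 + z • (Y i).1).det := fun z => by
        simp only [hwY, Pi.add_apply, Pi.smul_apply, vec, Prod.fst_add, Prod.smul_fst, slot,
          det_mul, (hp.1 i).1, one_mul]
      refine (hasDerivAt_det_one_add (Y i).1).unique ?_
      have e' : (fun z : ℂ => (1 + z • (Y i).1).det) = fun z : ℂ => ((p + z • w) i).1.det :=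
        funext fun z => (e z).symm
      rw [e']
      exact this
    · have := (ContinuousLinearMap.snd ℂ ℂ ℂ).hasFDerivAt.comp_hasDerivAt (0 : ℂ) hi
      have e : ∀ z : ℂ, ((p + z • w) i).2.det = (1 + z • (Y i).2).det := fun z => by
        simp only [hwY, Pi.add_apply, Pi.smul_apply, vec, Prod.snd_add, Prod.smul_snd, slot,
          det_mul, (hp.1 i).2, one_mul]
      have e' : (fun z : ℂ => (1 + z • (Y i).2).det) = fun z : ℂ => ((p + z • w) i).2.det :=
        funext fun z => (e z).symm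
      refine (hasDerivAt_det_one_add (Y i).2).unique ?_
      rw [e']
      exact this
  refine ⟨Y, ⟨hY, ?_⟩, hwY⟩
  refine (hasDerivAt_rel hW hr Y hY).unique ?_
  rw [← hpdef, ← hwY]
  exact hrel

/-- If the velocities of nice flows fill the tangent space, then near the mirror tuple the
representation space is contained in the closure and behaves irreducibly. -/
theorem open_of_span {ω : ℂ} {A B : Mat r} (hW : Weyl ω A B)
    (hspan : ∀ Y : Tup (h + 2) r, Tan A B Y →
      vec (Mir h A B) Y ∈ Submodule.span ℂ (Vel (Mir h A B))) :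
    ∃ U : Set (Tup (h + 2) r), IsOpen U ∧ Mir h A B ∈ U ∧ U ∩ Hom (h + 2) r ⊆ Cl (h + 2) r ∧
      ∀ U' : Set (Tup (h + 2) r), IsOpen U' → Mir h A B ∈ U' →
        ∀ f ∈ PF (Tup (h + 2) r), ∀ g ∈ PF (Tup (h + 2) r),
        (∀ x ∈ U' ∩ Hom (h + 2) r, f x * g x = 0) →
        (∀ x ∈ U ∩ Hom (h + 2) r, f x = 0) ∨ (∀ x ∈ U ∩ Hom (h + 2) r, g x = 0) := by
  classical
  rcases Nat.eq_zero_or_pos r with hr0 | hrpos
  · subst hr0
    have heq : ∀ x : Tup (h + 2) 0, x = Mir h A B := fun x => by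
      funext i; ext a <;> exact a.elim0
    refine ⟨Set.univ, isOpen_univ, trivial, fun x _ => by
      rw [heq x]; exact Mir_mem_cl hW.2.1 hW.2.2.1, fun U' _ hpU' f _ g _ hfg => ?_⟩
    rcases mul_eq_zero.1 (hfg (Mir h A B) ⟨hpU', Mir_mem_hom hW.2.1 hW.2.2.1⟩) with h0 | h0
    · exact Or.inl fun x _ => by rw [heq x, h0]
    · exact Or.inr fun x _ => by rw [heq x, h0]
  have hA := hW.2.1
  have hB := hW.2.2.1
  set p := Mir h A B with hp
  have hpM : p ∈ MirSet h r := ⟨A, B, hA, hB, rfl⟩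
  have hpH : p ∈ Hom (h + 2) r := Mir_mem_hom hA hB
  set W := Submodule.span ℂ (Vel p) with hWdef
  -- finitely many flows
  obtain ⟨b, hbV, hbspan, hbli⟩ := exists_linearIndependent ℂ (Vel p)
  have : Fintype b := hbli.setFinite.fintype
  let n := Fintype.card b
  let e : Fin n ≃ b := (Fintype.equivFin b).symm
  choose Ψ hΨ using fun i : Fin n => hbV (e i).2
  let Φ : (Fin n → ℂ) → Tup (h + 2) r := fun t => compose n Ψ t p
  have hΦcl : ∀ t, Φ t ∈ Cl (h + 2) r := compose_mem_cl n Ψ (fun i => (hΨ i).1) p hpM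
  have hΦc : ContDiff ℂ 1 Φ :=
    (compose_contDiff n Ψ fun i => (hΨ i).1).comp (contDiff_id.prodMk contDiff_const)
  have hΦ0 : Φ 0 = p := compose_zero n Ψ (fun i => (hΨ i).1) p hpH
  set D := fderiv ℂ Φ 0
  have hD : HasStrictFDerivAt Φ D 0 :=
    (hΦc.contDiffAt.hasStrictFDerivAt one_ne_zero)
  have hDe : ∀ i, D (Pi.single i 1) = (e i : Tup (h + 2) r) := by
    intro i
    have hl : HasDerivAt (fun u : ℂ => u • (Pi.single i 1 : Fin n → ℂ)) (Pi.single i 1) 0 := by
      simpa using (hasDerivAt_id (0 : ℂ)).smul_const (Pi.single i 1 : Fin n → ℂ)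
    have h0 : HasFDerivAt Φ D ((0 : ℂ) • (Pi.single i 1 : Fin n → ℂ)) := by
      simpa using hD.hasFDerivAt
    have hc := h0.comp_hasDerivAt (0 : ℂ) hl
    refine hc.unique ((hΨ i).2.congr_of_eventuallyEq (Eventually.of_forall fun u => ?_))
    have hu : Ψ i u p ∈ Hom (h + 2) r :=
      Cl.subset_hom (compose_mem_cl 1 (fun _ => Ψ i) (fun _ => (hΨ i).1) p hpM fun _ => u)
    show compose n Ψ (u • Pi.single i 1) p = Ψ i u p
    rw [← Pi.single_smul, smul_eq_mul, mul_one]
    exact compose_single n Ψ (fun i => (hΨ i).1) i u p hpH hu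
  -- projection onto the span
  obtain ⟨π₀, hπ₀⟩ := W.subtype.exists_leftInverse_of_injective W.ker_subtype
  let π : Tup (h + 2) r →L[ℂ] W := LinearMap.toContinuousLinearMap π₀
  have hπ : ∀ v : W, π (v : Tup (h + 2) r) = v := fun v => LinearMap.congr_fun hπ₀ v
  have hG : map (fun t => π (Φ t)) (𝓝 0) = 𝓝 (π p) := by
    have hs : HasStrictFDerivAt (fun t => π (Φ t)) (π.comp D) 0 :=
      π.hasStrictFDerivAt.comp 0 hD
    have hrange : (π.comp D).range = ⊤ := by
      refine LinearMap.range_eq_top.2 fun v => ?_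
      have hle : W ≤ (D : (Fin n → ℂ) →ₗ[ℂ] Tup (h + 2) r).range := by
        rw [hWdef, ← hbspan, Submodule.span_le]
        intro x hx
        exact ⟨Pi.single (e.symm ⟨x, hx⟩) 1, by
          simpa using hDe (e.symm ⟨x, hx⟩)⟩
      obtain ⟨t, ht⟩ := hle v.2
      exact ⟨t, by show π (D t) = v; rw [show D t = (v : Tup (h + 2) r) from ht, hπ]⟩
    exact (hs.map_nhds_eq_of_surj hrange).trans (congrArg (fun x => 𝓝 (π x)) hΦ0)
  -- equations and projection are jointly injective near `p`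
  obtain ⟨V, hV, hVinj⟩ : ∃ V ∈ 𝓝 p, ∀ x ∈ V, ∀ y ∈ V,
      eqn x = eqn y → π x = π y → x = y := by
    let K : Tup (h + 2) r → ((Fin (h + 2) → ℂ × ℂ) × Mat r) × W := fun x => (eqn x, π x)
    have hF : HasStrictFDerivAt (fun x : Tup (h + 2) r => eqn x)
        (fderiv ℂ (fun x : Tup (h + 2) r => eqn x) p) p :=
      PMap.eqn.contDiff.contDiffAt.hasStrictFDerivAt one_ne_zero
    set F' := fderiv ℂ (fun x : Tup (h + 2) r => eqn x) p
    have hK : HasStrictFDerivAt K (F'.prod π) p := hF.prodMk π.hasStrictFDerivAt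
    have hker : LinearMap.ker (F'.prod π).toLinearMap = ⊥ := by
      rw [LinearMap.ker_eq_bot']
      intro w hw
      have hw1 : F' w = 0 := congrArg Prod.fst hw
      have hw2 : π w = 0 := congrArg Prod.snd hw
      obtain ⟨Y, hY, rfl⟩ := tan_of_ker hW hrpos.ne' hF.hasFDerivAt hw1
      have hm : vec p Y ∈ W := hspan Y hY
      have := hπ ⟨_, hm⟩
      rw [hw2] at this
      exact (congrArg Subtype.val this).symm
    obtain ⟨L₀, hL₀⟩ := LinearMap.exists_leftInverse_of_injective _ hker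
    let L := LinearMap.toContinuousLinearMap L₀
    have hLK : HasStrictFDerivAt (fun x => L (K x))
        ((ContinuousLinearEquiv.refl ℂ (Tup (h + 2) r) : Tup (h + 2) r ≃L[ℂ] Tup (h + 2) r) :
          Tup (h + 2) r →L[ℂ] Tup (h + 2) r) p := by
      have h' := L.hasStrictFDerivAt.comp p hK
      refine h'.congr_fderiv ?_
      ext1 w
      exact LinearMap.congr_fun hL₀ w
    have hev := hLK.isLittleO.bound (show (0 : ℝ) < 1 / 2 by norm_num)
    rw [nhds_prod_eq] at hev
    obtain ⟨pa, hpa, pb, hpb, hVb⟩ := eventually_prod_iff.1 hev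
    refine ⟨_, hpa.and hpb, fun x hx y hy h1 h2 => ?_⟩
    have hb : ‖L (K x) - L (K y) - (x - y)‖ ≤ 1 / 2 * ‖x - y‖ := hVb hx.1 hy.2
    rw [show K x = K y by simp only [K, h1, h2], sub_self, zero_sub, norm_neg] at hb
    exact sub_eq_zero.1 (norm_le_zero_iff.1 (by linarith))
  have hΦV : ∀ᶠ t in 𝓝 (0 : Fin n → ℂ), Φ t ∈ V := by
    have := hΦc.continuous.tendsto 0
    rw [hΦ0] at this
    exact this hV
  set T : Set (Fin n → ℂ) := {t | Φ t ∈ V}
  have hGT : (fun t => π (Φ t)) '' T ∈ 𝓝 (π p) := hG ▸ image_mem_map hΦV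
  let U : Set (Tup (h + 2) r) := interior V ∩ π ⁻¹' interior ((fun t => π (Φ t)) '' T)
  have hUo : IsOpen U := isOpen_interior.inter (isOpen_interior.preimage π.continuous)
  have hpU : p ∈ U := ⟨mem_interior_iff_mem_nhds.2 hV, mem_interior_iff_mem_nhds.2 hGT⟩
  have hcover : ∀ x ∈ U ∩ Hom (h + 2) r, ∃ t, Φ t = x := by
    rintro x ⟨⟨hxV, hxπ⟩, hxH⟩
    obtain ⟨t, ht, hπt⟩ := interior_subset hxπ
    refine ⟨t, hVinj _ ht _ (interior_subset hxV) ?_ hπt⟩
    rw [eqn_hom (Cl.subset_hom (hΦcl t)), eqn_hom hxH]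
  refine ⟨U, hUo, hpU, fun x hx => ?_, fun U' hU'o hpU' f hf g hg hfg => ?_⟩
  · obtain ⟨t, rfl⟩ := hcover x hx; exact hΦcl t
  -- identity theorem along lines
  have entire : ∀ {q : Tup (h + 2) r → ℂ}, q ∈ PF (Tup (h + 2) r) → ∀ a c : Fin n → ℂ,
      Differentiable ℂ (fun z : ℂ => q (Φ (a + z • c))) := fun hq a c =>
    ((PF.contDiff hq).comp (hΦc.comp
      (contDiff_const.add (contDiff_id.smul contDiff_const)))).differentiable one_ne_zero
  have ident : ∀ {q : ℂ → ℂ}, Differentiable ℂ q → (∀ᶠ z in 𝓝 0, q z = 0) → ∀ z, q z = 0 :=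
    fun {q} hq hev z => (show AnalyticOnNhd ℂ q Set.univ from fun w _ => hq.analyticAt w)
      |>.eqOn_zero_of_preconnected_of_eventuallyEq_zero isPreconnected_univ
        (Set.mem_univ (0 : ℂ)) hev (Set.mem_univ z)
  have hall : ∀ t, f (Φ t) * g (Φ t) = 0 := by
    intro t
    have hev : ∀ᶠ z : ℂ in 𝓝 0, f (Φ (0 + z • t)) * g (Φ (0 + z • t)) = 0 := by
      have hc : Continuous fun z : ℂ => Φ (0 + z • t) :=
        hΦc.continuous.comp (continuous_const.add (continuous_id.smul continuous_const))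
      have hU' : ∀ᶠ z : ℂ in 𝓝 0, Φ (0 + z • t) ∈ U' :=
        hc.tendsto 0 (hU'o.mem_nhds (by simpa [hΦ0] using hpU'))
      exact hU'.mono fun z hz => hfg _ ⟨hz, Cl.subset_hom (hΦcl _)⟩
    simpa using ident ((entire hf 0 t).mul (entire hg 0 t)) hev 1
  by_cases hf0 : ∀ t, f (Φ t) = 0
  · exact Or.inl fun x hx => by obtain ⟨t, rfl⟩ := hcover x hx; exact hf0 t
  · obtain ⟨t₁, ht₁⟩ := not_forall.1 hf0
    refine Or.inr fun x hx => ?_
    obtain ⟨t₂, rfl⟩ := hcover x hx
    have hne : ∀ᶠ z : ℂ in 𝓝 0, g (Φ (t₁ + z • (t₂ - t₁))) = 0 := by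
      have : ∀ᶠ z : ℂ in 𝓝 0, f (Φ (t₁ + z • (t₂ - t₁))) ≠ 0 :=
        (entire hf t₁ (t₂ - t₁)).continuous.continuousAt.eventually_ne (by simpa using ht₁)
      exact this.mono fun z hz => (mul_eq_zero.1 (hall _)).resolve_left hz
    simpa using ident (entire hg t₁ (t₂ - t₁)) hne 1

end Vale.Agent.P002.Surface
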