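import Vale.Agent.P002.Surface.Basic

/-! The mirror family `(a,b,b,a,1,…)` lies in the closure; paths in `SL_r`. -/

open Matrix

namespace Vale.Agent.P002.Surface

attribute [local instance] Matrix.linftyOpNormedAddCommGroup Matrix.linftyOpNormedSpace
  Matrix.linftyOpNormedRing Matrix.linftyOpNormedAlgebra

variable {r h : ℕ}

lemma sl_induction (P : Mat r → Prop) (one : P 1)
    (tv : ∀ i j : Fin r, i ≠ j → ∀ c : ℂ, P (Matrix.transvection i j c))
    (mul : ∀ A B, P A → P B → P (A * B)) {M : Mat r} (hM : M.det = 1) : P M := by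
  rcases le_or_gt r 1 with h1 | h1
  · have : M = 1 := by
      interval_cases r
      · ext i; exact i.elim0
      · ext i j
        fin_cases i; fin_cases j
        simpa using hM
    exact this ▸ one
  · have : Nontrivial (Fin r) := Fin.nontrivial_iff_two_le.2 h1
    refine SpecialLinearGroup.diagonal_transvection_induction' (fun g => P g.1) ⟨M, hM⟩ ?_
      (fun i j hij a => tv i j hij a) (fun A B hA hB => mul _ _ hA hB)
    intro i j hij c hc
    let w : ℂ → Mat r := fun c => transvection i j c * transvection j i (-c⁻¹) * transvection i j c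
    have hw : ∀ c, P (w c) := fun c =>
      mul _ _ (mul _ _ (tv i j hij c) (tv j i hij.symm _)) (tv i j hij c)
    have key : (SpecialLinearGroup.diag2n hij c hc).1 = w c * w (-1) := by
      rw [SpecialLinearGroup.diag2n_coe]
      ext a b
      by_cases hai : a = i <;> by_cases haj : a = j <;> by_cases hbi : b = i <;> by_cases hbj : b = j <;>
        simp_all [w, transvection, mul_add, add_mul, diagonal_apply, single_apply,
          Matrix.one_apply, eq_comm]
    rw [key]; exact mul _ _ (hw c) (hw _)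

/-- Mirror tuple. -/
def Mir (h : ℕ) (a b : Mat r) : Tup (h + 2) r :=
  Fin.cons (a, b) (Fin.cons (b, a) fun _ => (1, 1))

@[simp] lemma Mir_zero (a b : Mat r) : Mir h a b 0 = (a, b) := rfl
@[simp] lemma Mir_one (a b : Mat r) : Mir h a b 1 = (b, a) := rfl
@[simp] lemma Mir_succ (a b : Mat r) (j : Fin h) : Mir h a b j.succ.succ = (1, 1) := rfl

lemma rel_split (x : Tup (h + 2) r) :
    rel x = comm (x 0) * (comm (x 1) * (List.ofFn fun j : Fin h => comm (x j.succ.succ)).prod) := by
  rw [rel, List.ofFn_succ, List.prod_cons, List.ofFn_succ, List.prod_cons]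
  rfl

lemma mul_adj {a : Mat r} (ha : a.det = 1) : a * a.adjugate = 1 := by
  rw [mul_adjugate, ha, one_smul]

lemma adj_mul {a : Mat r} (ha : a.det = 1) : a.adjugate * a = 1 := by
  rw [adjugate_mul, ha, one_smul]

lemma comm_mirror {a b : Mat r} (ha : a.det = 1) (hb : b.det = 1) :
    comm (a, b) * comm (b, a) = 1 := by
  simp only [comm]
  calc a * b * a.adjugate * b.adjugate * (b * a * b.adjugate * a.adjugate)
      = a * b * a.adjugate * (b.adjugate * b) * a * b.adjugate * a.adjugate := by
        simp only [mul_assoc]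
    _ = a * b * (a.adjugate * a) * b.adjugate * a.adjugate := by
        rw [adj_mul hb, mul_one]; simp only [mul_assoc]
    _ = a * (b * b.adjugate) * a.adjugate := by rw [adj_mul ha, mul_one]; simp only [mul_assoc]
    _ = 1 := by rw [mul_adj hb, mul_one, mul_adj ha]

lemma comm_one : comm ((1 : Mat r), (1 : Mat r)) = 1 := by simp [comm]

lemma Mir_mem_hom {a b : Mat r} (ha : a.det = 1) (hb : b.det = 1) :
    Mir h a b ∈ Hom (h + 2) r := by
  refine ⟨Fin.cases ⟨ha, hb⟩ (Fin.cases ⟨hb, ha⟩ fun j => ⟨det_one, det_one⟩), ?_⟩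
  rw [rel_split, Mir_zero, Mir_one]
  simp [comm_one, comm_mirror ha hb]

lemma PMap.mir {T : Type*} [NormedAddCommGroup T] [NormedSpace ℂ T] {φ ψ : T → Mat r}
    (hφ : PMap φ) (hψ : PMap ψ) : PMap (fun t => Mir h (φ t) (ψ t)) := by
  refine PMap.pi fun i => ?_
  refine Fin.cases ?_ (Fin.cases ?_ (fun j => ?_)) i
  · exact hφ.prodMk hψ
  · exact hψ.prodMk hφ
  · exact PMap.const _

lemma PF.vanish_of_int {f : ℂ → ℂ} (hf : f ∈ PF ℂ) (h : ∀ n : ℤ, f n = 0) (z : ℂ) : f z = 0 := by
  obtain ⟨p, hp⟩ : ∃ p : Polynomial ℂ, ∀ v, f v = p.eval v := by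
    refine Algebra.adjoin_induction (p := fun g _ => ∃ p : Polynomial ℂ, ∀ v, g v = p.eval v)
      ?_ ?_ ?_ ?_ hf
    · rintro g ⟨l, rfl⟩
      refine ⟨Polynomial.C (l 1) * Polynomial.X, fun v => ?_⟩
      show l v = _
      rw [Polynomial.eval_mul, Polynomial.eval_C, Polynomial.eval_X, mul_comm, ← smul_eq_mul,
        ← map_smul, smul_eq_mul, mul_one]
    · intro c; exact ⟨Polynomial.C c, fun v => by simp⟩
    · rintro g g' _ _ ⟨p, hp⟩ ⟨q, hq⟩; exact ⟨p + q, fun v => by simp [hp, hq]⟩
    · rintro g g' _ _ ⟨p, hp⟩ ⟨q, hq⟩; exact ⟨p * q, fun v => by simp [hp, hq]⟩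
  have : p = 0 := by
    refine Polynomial.eq_zero_of_infinite_isRoot p ?_
    refine Set.Infinite.mono ?_ (Set.infinite_range_of_injective (Int.cast_injective (α := ℂ)))
    rintro _ ⟨n, rfl⟩
    exact (hp n).symm.trans (h n)
  rw [hp, this, Polynomial.eval_zero]

/-- A property of pairs stable under integral transvections extends to all transvections. -/
lemma dense_step (Q : Mat r → Prop) (f : Mat r → ℂ) (hf : f ∈ PF (Mat r))
    (hQ : ∀ M, Q M → f M = 0) (hQint : ∀ i j : Fin r, i ≠ j → ∀ n : ℤ, ∀ M, Q M →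
      Q (transvection i j (n : ℂ) * M)) :
    ∀ A : Mat r, A.det = 1 → ∀ M, Q M → f (A * M) = 0 := by
  intro A hA
  have main : ∀ g ∈ PF (Mat r), (∀ M, Q M → g M = 0) → ∀ M, Q M → g (A * M) = 0 := by
    refine sl_induction (fun A => ∀ g ∈ PF (Mat r), (∀ M, Q M → g M = 0) →
      ∀ M, Q M → g (A * M) = 0) ?_ ?_ ?_ hA
    · intro g _ hg M hM; simpa using hg M hM
    · intro i j hij c g hg hg0 M hM
      have hp : PMap (fun z : ℂ => transvection i j z * M) := by
        refine PMap.mul ?_ (PMap.const M)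
        have : (fun z : ℂ => transvection i j z) = fun z => (1 : Mat r) + z • single i j 1 := by
          funext z; simp [transvection]
        show PMap (fun z : ℂ => transvection i j z)
        rw [this]
        exact (PMap.const _).add (PMap.clm ((ContinuousLinearMap.id ℂ ℂ).smulRight (single i j 1)))
      exact PF.vanish_of_int (PF.comp hg hp) (fun n => hg0 _ (hQint i j hij n M hM)) c
    · intro A B hA hB g hg hg0 M hM
      rw [mul_assoc]
      refine hB (fun N => g (A * N)) (PF.comp hg ((PMap.const A).mul PMap.id')) ?_ M hM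
      exact hA g hg hg0
  exact main f hf hQ

lemma IntMat.transvection (i j : Fin r) (n : ℤ) : IntMat (Matrix.transvection i j (n : ℂ)) :=
  ⟨Matrix.transvection i j n, by
    ext a b
    simp [Matrix.transvection, Matrix.one_apply, Matrix.single_apply]⟩

lemma Mir_mem_cl {a b : Mat r} (ha : a.det = 1) (hb : b.det = 1) :
    Mir h a b ∈ Cl (h + 2) r := by
  intro f hf hvan
  let Q : Mat r → Prop := fun M => IntMat M ∧ M.det = 1
  have hint : ∀ i j : Fin r, i ≠ j → ∀ n : ℤ, ∀ M, Q M → Q (transvection i j (n : ℂ) * M) :=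
    fun i j hij n M hM => ⟨(IntMat.transvection i j n).mul hM.1, by
      rw [det_mul, det_transvection_of_ne _ _ hij, hM.2, mul_one]⟩
  have h1 : ∀ A : Mat r, A.det = 1 → ∀ N, Q N → f (Mir h A N) = 0 := by
    intro A hA N hN
    have := dense_step Q (fun M => f (Mir h M N))
      (PF.comp hf (PMap.id'.mir (PMap.const N))) (fun M hM => hvan _ (Mir_mem_hom hM.2 hN.2)
        (Fin.cases ⟨hM.1, hN.1⟩ (Fin.cases ⟨hN.1, hM.1⟩ fun _ => ⟨IntMat.one, IntMat.one⟩)))
      hint A hA 1 ⟨IntMat.one, det_one⟩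
    simpa using this
  have := dense_step Q (fun N => f (Mir h a N)) (PF.comp hf ((PMap.const a).mir PMap.id'))
    (fun N hN => h1 a ha N hN) hint b hb 1 ⟨IntMat.one, det_one⟩
  simpa using this

/-- A matrix joined to the identity by a differentiable curve in `SL_r`. -/
def Joined1 (M : Mat r) : Prop :=
  ∃ c : ℂ → Mat r, ContDiff ℂ 1 c ∧ (∀ z, (c z).det = 1) ∧ c 0 = 1 ∧ c 1 = M

lemma joined_of_det {M : Mat r} (hM : M.det = 1) : Joined1 M := by
  refine sl_induction Joined1 ⟨fun _ => 1, contDiff_const, fun _ => det_one, rfl, rfl⟩ ?_ ?_ hM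
  · intro i j hij c
    refine ⟨fun z => transvection i j (z * c), ?_, fun z => det_transvection_of_ne _ _ hij _,
      by simp, by simp⟩
    have : (fun z : ℂ => transvection i j (z * c)) = fun z => (1 : Mat r) + z • single i j c := by
      funext z; simp [transvection]
    rw [this]
    exact contDiff_const.add (contDiff_id.smul contDiff_const)
  · rintro A B ⟨c, hc, hd, h0, h1⟩ ⟨c', hc', hd', h0', h1'⟩
    exact ⟨fun z => c z * c' z, hc.mul hc', fun z => by rw [det_mul, hd, hd', mul_one],
      by simp [h0, h0'], by simp [h1, h1']⟩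

/-- Curves in `SL_r` through two prescribed points. -/
lemma exists_curve {A B : Mat r} (hA : A.det = 1) (hB : B.det = 1) :
    ∃ c : ℂ → Mat r, ContDiff ℂ 1 c ∧ (∀ z, (c z).det = 1) ∧ c 0 = A ∧ c 1 = B := by
  have hd : (B * A.adjugate).det = 1 := by
    rw [det_mul, det_adjugate, hA, hB, one_pow, one_mul]
  obtain ⟨c, hc, hcd, h0, h1⟩ := joined_of_det hd
  refine ⟨fun z => c z * A, hc.mul contDiff_const, fun z => by rw [det_mul, hcd, hA, one_mul],
    by simp [h0], ?_⟩
  show c 1 * A = B
  rw [h1, mul_assoc, adj_mul hA, mul_one]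

end Vale.Agent.P002.Surface
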