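import Mathlib

/-! Polynomial maps, tuples of matrices, surface relation and the Zariski closure of the
integral representations. -/

open Matrix

namespace Vale.Agent.P002.Surface

attribute [local instance] Matrix.linftyOpNormedAddCommGroup Matrix.linftyOpNormedSpace
  Matrix.linftyOpNormedRing Matrix.linftyOpNormedAlgebra

section PF

variable {T U V : Type*}
  [NormedAddCommGroup T] [NormedSpace ℂ T]
  [NormedAddCommGroup U] [NormedSpace ℂ U]
  [NormedAddCommGroup V] [NormedSpace ℂ V]

/-- Polynomial functions on a normed space. -/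
noncomputable def PF (T : Type*) [NormedAddCommGroup T] [NormedSpace ℂ T] :
    Subalgebra ℂ (T → ℂ) :=
  Algebra.adjoin ℂ (Set.range fun l : T →L[ℂ] ℂ => (l : T → ℂ))

/-- Polynomial maps. -/
def PMap (φ : T → U) : Prop := ∀ l : U →L[ℂ] ℂ, (fun x => l (φ x)) ∈ PF T

lemma PF.clm (l : T →L[ℂ] ℂ) : (l : T → ℂ) ∈ PF T :=
  Algebra.subset_adjoin ⟨l, rfl⟩

lemma PF.const (c : ℂ) : (fun _ : T => c) ∈ PF T :=
  (PF T).algebraMap_mem c

lemma PF.comp {f : U → ℂ} (hf : f ∈ PF U) {φ : T → U} (hφ : PMap φ) :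
    (fun x => f (φ x)) ∈ PF T := by
  refine Algebra.adjoin_induction (p := fun g _ => (fun x => g (φ x)) ∈ PF T) ?_ ?_ ?_ ?_ hf
  · rintro g ⟨l, rfl⟩; exact hφ l
  · intro c; exact PF.const c
  · intro g g' _ _ h h'; exact (PF T).add_mem h h'
  · intro g g' _ _ h h'; exact (PF T).mul_mem h h'

lemma PMap.comp {φ : U → V} (hφ : PMap φ) {ψ : T → U} (hψ : PMap ψ) :
    PMap (fun x => φ (ψ x)) := fun l => PF.comp (hφ l) hψ

lemma PMap.clm (L : T →L[ℂ] U) : PMap (L : T → U) :=
  fun l => PF.clm (l.comp L)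

lemma PMap.id' : PMap (fun x : T => x) := fun l => PF.clm l

lemma PMap.fst : PMap (fun x : T × U => x.1) := PMap.clm (ContinuousLinearMap.fst ℂ T U)

lemma PMap.snd : PMap (fun x : T × U => x.2) := PMap.clm (ContinuousLinearMap.snd ℂ T U)

lemma PMap.proj {ι : Type*} [Fintype ι] (i : ι) : PMap (fun x : ι → T => x i) :=
  PMap.clm (ContinuousLinearMap.proj (R := ℂ) (φ := fun _ : ι => T) i)

lemma PMap.const (c : U) : PMap (fun _ : T => c) := fun l => PF.const (l c)

lemma PMap.add {φ ψ : T → U} (hφ : PMap φ) (hψ : PMap ψ) : PMap (fun x => φ x + ψ x) := by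
  intro l; simp only [map_add]; exact (PF T).add_mem (hφ l) (hψ l)

lemma PMap.smul {φ : T → U} (c : ℂ) (hφ : PMap φ) : PMap (fun x => c • φ x) := by
  intro l; simp only [map_smul, smul_eq_mul]; exact (PF T).mul_mem (PF.const c) (hφ l)

lemma PMap.sum {α : Type*} (s : Finset α) (φ : α → T → U) (h : ∀ a ∈ s, PMap (φ a)) :
    PMap (fun x => ∑ a ∈ s, φ a x) := by
  classical
  induction s using Finset.induction_on with
  | empty => simpa using PMap.const (T := T) (0 : U)
  | insert a s ha ih =>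
    simp only [Finset.sum_insert ha]
    exact (h a (Finset.mem_insert_self _ _)).add (ih fun b hb => h b (Finset.mem_insert_of_mem hb))

lemma PMap.prodMk {φ : T → U} {ψ : T → V} (hφ : PMap φ) (hψ : PMap ψ) :
    PMap (fun x => (φ x, ψ x)) := by
  intro l
  have : (fun x => l (φ x, ψ x)) = fun x =>
      l.comp (ContinuousLinearMap.inl ℂ U V) (φ x) + l.comp (ContinuousLinearMap.inr ℂ U V) (ψ x) := by
    funext x; simp [← map_add]
  rw [this]; exact (PF T).add_mem (hφ _) (hψ _)

lemma PMap.pi {ι : Type*} [Fintype ι] {φ : T → ι → U} (h : ∀ i, PMap (fun x => φ x i)) :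
    PMap φ := by
  classical
  intro l
  have : (fun x => l (φ x)) = fun x =>
      ∑ i, l.comp (ContinuousLinearMap.single ℂ (fun _ : ι => U) i) (φ x i) := by
    funext x
    simp only [ContinuousLinearMap.comp_apply, ContinuousLinearMap.single_apply, ← map_sum]
    rw [Finset.univ_sum_single]
  rw [this, ← Finset.sum_fn]
  exact (PF T).sum_mem fun i _ => h i _

lemma PF.contDiff {f : T → ℂ} (hf : f ∈ PF T) : ContDiff ℂ 1 f := by
  refine Algebra.adjoin_induction (p := fun g _ => ContDiff ℂ 1 g) ?_ ?_ ?_ ?_ hf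
  · rintro g ⟨l, rfl⟩; exact l.contDiff
  · intro c; exact contDiff_const
  · intro g g' _ _ h h'; exact h.add h'
  · intro g g' _ _ h h'; exact h.mul h'

end PF

variable {r : ℕ}

/-- Square complex matrices. -/
abbrev Mat (r : ℕ) : Type := Matrix (Fin r) (Fin r) ℂ

section MatPF

variable {T : Type*} [NormedAddCommGroup T] [NormedSpace ℂ T]

lemma PF.entry (i j : Fin r) : (fun M : Mat r => M i j) ∈ PF (Mat r) :=
  PF.clm (LinearMap.toContinuousLinearMap
    ((Matrix.entryLinearMap ℂ ℂ i j : Mat r →ₗ[ℂ] ℂ)))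

lemma PMap.mat {φ : T → Mat r} (h : ∀ i j, (fun x => φ x i j) ∈ PF T) : PMap φ := by
  intro l
  have : (fun x => l (φ x)) = fun x => ∑ i, ∑ j, φ x i j * l (Matrix.single i j 1) := by
    funext x
    conv_lhs => rw [matrix_eq_sum_single (φ x)]
    simp only [map_sum]
    refine Finset.sum_congr rfl fun i _ => Finset.sum_congr rfl fun j _ => ?_
    rw [show Matrix.single i j (φ x i j) = φ x i j • Matrix.single i j (1 : ℂ) by simp,
      map_smul, smul_eq_mul]
  rw [this, ← Finset.sum_fn]
  refine (PF T).sum_mem fun i _ => ?_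
  rw [← Finset.sum_fn]
  exact (PF T).sum_mem fun j _ => (PF T).mul_mem (h i j) (PF.const _)

lemma PMap.entry {φ : T → Mat r} (hφ : PMap φ) (i j : Fin r) : (fun x => φ x i j) ∈ PF T :=
  PF.comp (PF.entry i j) hφ

lemma PMap.mul {φ ψ : T → Mat r} (hφ : PMap φ) (hψ : PMap ψ) : PMap (fun x => φ x * ψ x) := by
  refine PMap.mat fun i j => ?_
  simp only [Matrix.mul_apply, ← Finset.sum_fn]
  exact (PF T).sum_mem fun k _ => (PF T).mul_mem (hφ.entry i k) (hψ.entry k j)

lemma PMap.mpow {φ : T → Mat r} (hφ : PMap φ) (n : ℕ) : PMap (fun x => φ x ^ n) := by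
  induction n with
  | zero => simpa using PMap.const (T := T) (1 : Mat r)
  | succ n ih => simpa only [pow_succ] using ih.mul hφ

lemma PMap.det' {φ : T → Mat r} (h : ∀ i j, (fun x => φ x i j) ∈ PF T) :
    (fun x => (φ x).det) ∈ PF T := by
  have : (fun x => (φ x).det) = ∑ σ : Equiv.Perm (Fin r),
      (fun _ : T => ((Equiv.Perm.sign σ : ℤ) : ℂ)) * ∏ i, fun x => φ x (σ i) i := by
    funext x
    simp [Matrix.det_apply', Finset.prod_apply]
  rw [this]
  exact (PF T).sum_mem fun σ _ => (PF T).mul_mem (PF.const _) ((PF T).prod_mem fun i _ => h _ _)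

lemma PMap.adjugate {φ : T → Mat r} (hφ : PMap φ) : PMap (fun x => (φ x).adjugate) := by
  refine PMap.mat fun i j => ?_
  simp only [Matrix.adjugate_apply]
  refine PMap.det' fun a b => ?_
  by_cases ha : a = j
  · subst ha; simp only [Matrix.updateRow_self]; exact PF.const _
  · simp only [Matrix.updateRow_ne ha]; exact hφ.entry a b

lemma PMap.listProd {α : Type*} (L : List α) (φ : α → T → Mat r) (h : ∀ a ∈ L, PMap (φ a)) :
    PMap (fun x => (L.map fun a => φ a x).prod) := by
  induction L with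
  | nil => simpa using PMap.const (T := T) (1 : Mat r)
  | cons a L ih =>
    simpa using (h a (by simp)).mul (ih fun b hb => h b (by simp [hb]))

lemma PMap.contDiff {U : Type*} [NormedAddCommGroup U] [NormedSpace ℂ U] [FiniteDimensional ℂ U]
    {φ : T → U} (hφ : PMap φ) : ContDiff ℂ 1 φ := by
  let b := Module.finBasis ℂ U
  have e : φ = fun x => ∑ i, (LinearMap.toContinuousLinearMap (b.coord i)) (φ x) • b i := by
    funext x; simp [b.sum_repr]
  rw [e]
  exact ContDiff.sum fun i _ => (PF.contDiff (hφ _)).smul contDiff_const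

end MatPF

/-- Tuples of `g` pairs of matrices. -/
abbrev Tup (g r : ℕ) : Type := Fin g → Mat r × Mat r

/-- The commutator, with adjugates as inverses. -/
def comm (P : Mat r × Mat r) : Mat r := P.1 * P.2 * P.1.adjugate * P.2.adjugate

/-- The surface relator. -/
def rel {g : ℕ} (x : Tup g r) : Mat r := (List.ofFn fun i => comm (x i)).prod

/-- Representations of the closed surface group of genus `g` into `SL_r`. -/
def Hom (g r : ℕ) : Set (Tup g r) :=
  {x | (∀ i, (x i).1.det = 1 ∧ (x i).2.det = 1) ∧ rel x = 1}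

/-- Integer matrices. -/
def IntMat (M : Mat r) : Prop :=
  ∃ N : Matrix (Fin r) (Fin r) ℤ, N.map (Int.castRingHom ℂ) = M

lemma IntMat.mul {M N : Mat r} (hM : IntMat M) (hN : IntMat N) : IntMat (M * N) := by
  obtain ⟨A, rfl⟩ := hM; obtain ⟨B, rfl⟩ := hN
  exact ⟨A * B, Matrix.map_mul⟩

lemma IntMat.adjugate {M : Mat r} (hM : IntMat M) : IntMat M.adjugate := by
  obtain ⟨A, rfl⟩ := hM
  exact ⟨A.adjugate, (Int.castRingHom ℂ).map_adjugate A⟩

lemma IntMat.one : IntMat (1 : Mat r) := ⟨1, by simp⟩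

lemma IntMat.pow {M : Mat r} (hM : IntMat M) (n : ℕ) : IntMat (M ^ n) := by
  induction n with
  | zero => simpa using IntMat.one
  | succ n ih => simpa [pow_succ] using ih.mul hM

lemma IntMat.listProd {L : List (Mat r)} (h : ∀ M ∈ L, IntMat M) : IntMat L.prod := by
  induction L with
  | nil => simpa using IntMat.one
  | cons a L ih => simpa using (h a (by simp)).mul (ih fun b hb => h b (by simp [hb]))

/-- Integer tuples. -/
def IntTup {g : ℕ} (x : Tup g r) : Prop := ∀ i, IntMat (x i).1 ∧ IntMat (x i).2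

/-- The Zariski closure of the integral representations. -/
def Cl (g r : ℕ) : Set (Tup g r) :=
  {x | ∀ f ∈ PF (Tup g r), (∀ y ∈ Hom g r, IntTup y → f y = 0) → f x = 0}

variable {g : ℕ}

lemma PMap.slot1 (i : Fin g) : PMap (fun x : Tup g r => (x i).1) :=
  PMap.fst.comp (PMap.proj i)

lemma PMap.slot2 (i : Fin g) : PMap (fun x : Tup g r => (x i).2) :=
  PMap.snd.comp (PMap.proj i)

lemma PMap.comm_slot (i : Fin g) : PMap (fun x : Tup g r => comm (x i)) :=
  (((PMap.slot1 i).mul (PMap.slot2 i)).mul (PMap.slot1 i).adjugate).mul (PMap.slot2 i).adjugate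

lemma PMap.rel : PMap (fun x : Tup g r => rel x) := by
  have : (fun x : Tup g r => Surface.rel x) =
      fun x => ((List.finRange g).map fun i => comm (x i)).prod := by
    funext x; simp [Surface.rel, List.ofFn_eq_map]
  rw [this]
  exact PMap.listProd _ _ fun i _ => PMap.comm_slot i

lemma Cl.subset_hom {x : Tup g r} (hx : x ∈ Cl g r) : x ∈ Hom g r := by
  refine ⟨fun i => ⟨?_, ?_⟩, ?_⟩
  · have h := hx (fun y => (y i).1.det - 1) ((PF _).sub_mem (PMap.det' fun a b => (PMap.slot1 i).entry a b)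
      (PF.const 1)) (fun y hy _ => by simp [(hy.1 i).1])
    simpa [sub_eq_zero] using h
  · have h := hx (fun y => (y i).2.det - 1) ((PF _).sub_mem (PMap.det' fun a b => (PMap.slot2 i).entry a b)
      (PF.const 1)) (fun y hy _ => by simp [(hy.1 i).2])
    simpa [sub_eq_zero] using h
  · ext a b
    have h := hx (fun y => Surface.rel y a b - (1 : Mat r) a b)
      ((PF _).sub_mem (PMap.rel.entry a b) (PF.const _)) (fun y hy _ => by simp [hy.2])
    simpa [sub_eq_zero] using h

lemma Cl.of_int {x : Tup g r} (hx : x ∈ Hom g r) (hi : IntTup x) : x ∈ Cl g r :=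
  fun _ _ h => h x hx hi

lemma Cl.image {φ : Tup g r → Tup g r} (hφ : PMap φ)
    (hH : ∀ y ∈ Hom g r, IntTup y → φ y ∈ Hom g r ∧ IntTup (φ y))
    {x : Tup g r} (hx : x ∈ Cl g r) : φ x ∈ Cl g r := by
  intro f hf h
  exact hx (fun y => f (φ y)) (PF.comp hf hφ) fun y hy hi => h _ (hH y hy hi).1 (hH y hy hi).2

lemma Cl.isClosed : IsClosed (Cl g r) := by
  have : Cl g r = ⋂ f ∈ PF (Tup g r), {x | (∀ y ∈ Hom g r, IntTup y → f y = 0) → f x = 0} := by
    ext x; simp [Cl]
  rw [this]
  refine isClosed_biInter fun f hf => ?_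
  by_cases h : ∀ y ∈ Hom g r, IntTup y → f y = 0
  · simp only [imp_iff_right h]
    exact isClosed_eq (PF.contDiff hf).continuous continuous_const
  · simp [h]

end Vale.Agent.P002.Surface
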