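import Vale.Agent.P002.Surface.Moves

/-! Weyl pairs, velocities of nice flows and the linearised surface relation. -/

open Matrix

namespace Vale.Agent.P002.Surface

attribute [local instance] Matrix.linftyOpNormedAddCommGroup Matrix.linftyOpNormedSpace
  Matrix.linftyOpNormedRing Matrix.linftyOpNormedAlgebra

variable {r h : ℕ}

/-- A pair of matrices of determinant one commuting up to a primitive root of unity. -/
def Weyl (ω : ℂ) (A B : Mat r) : Prop :=
  IsPrimitiveRoot ω r ∧ A.det = 1 ∧ B.det = 1 ∧ A * B = ω • (B * A) ∧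
    (∃ ν : ℂ, ν ≠ 0 ∧ A ^ r = ν • 1) ∧ ∃ ν : ℂ, ν ≠ 0 ∧ B ^ r = ν • 1

/-- Velocities at `p` of nice flows. -/
def Vel (p : Tup (h + 2) r) : Set (Tup (h + 2) r) :=
  {v | ∃ Ψ : ℂ → Tup (h + 2) r → Tup (h + 2) r, Nice Ψ ∧ HasDerivAt (fun u => Ψ u p) v 0}

/-- The tangent vector with right coordinates `Y`. -/
def vec {g : ℕ} (p Y : Tup g r) : Tup g r := fun i => ((p i).1 * (Y i).1, (p i).2 * (Y i).2)

/-- Linearised commutator at a pair with scalar commutator, in right coordinates. -/
def delta (A B : Mat r) (Y : Mat r × Mat r) : Mat r :=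
  A * Y.1 * A.adjugate - A * B * Y.1 * (A * B).adjugate +
    (A * B * Y.2 * (A * B).adjugate - B * Y.2 * B.adjugate)

/-- The linearised equations at the mirror tuple of `(A,B)`. -/
def Tan (A B : Mat r) (Y : Tup (h + 2) r) : Prop :=
  (∀ i, (Y i).1.trace = 0 ∧ (Y i).2.trace = 0) ∧ delta A B (Y 0) + delta B A (Y 1) = 0

end Vale.Agent.P002.Surface
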