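import Vale.Agent.P002.Surface.Flow

/-! The concrete twists and symmetries. -/

open Matrix

namespace Vale.Agent.P002.Surface

attribute [local instance] Matrix.linftyOpNormedAddCommGroup Matrix.linftyOpNormedSpace
  Matrix.linftyOpNormedRing Matrix.linftyOpNormedAlgebra

variable {r h : ℕ}

/-- Lift to the group. -/
def lift1 {a : Mat r} (ha : a.det = 1) : SpecialLinearGroup (Fin r) ℂ := ⟨a, ha⟩

lemma comm_coe (a b : SpecialLinearGroup (Fin r) ℂ) :
    comm ((↑a : Mat r), (↑b : Mat r)) =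
      (↑(a * b * a⁻¹ * b⁻¹ : SpecialLinearGroup (Fin r) ℂ) : Mat r) := by
  simp [comm]

lemma hom_comm_det {a b : Mat r} (ha : a.det = 1) (hb : b.det = 1) : (comm (a, b)).det = 1 := by
  simp [comm, det_mul, det_adjugate, ha, hb]

lemma comm_twist_right {a b k : Mat r} (ha : a.det = 1) (hb : b.det = 1) (hk : k.det = 1)
    (hc : k * a = a * k) : comm (a, b * k) = comm (a, b) := by
  obtain ⟨A, rfl⟩ : ∃ A : SpecialLinearGroup (Fin r) ℂ, (↑A : Mat r) = a := ⟨⟨a, ha⟩, rfl⟩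
  obtain ⟨B, rfl⟩ : ∃ B : SpecialLinearGroup (Fin r) ℂ, (↑B : Mat r) = b := ⟨⟨b, hb⟩, rfl⟩
  obtain ⟨K, rfl⟩ : ∃ K : SpecialLinearGroup (Fin r) ℂ, (↑K : Mat r) = k := ⟨⟨k, hk⟩, rfl⟩
  have hc' : Commute K A := Subtype.ext hc
  suffices key : A * (B * K) * A⁻¹ * (B * K)⁻¹ = A * B * A⁻¹ * B⁻¹ by
    simp only [comm]
    exact congrArg (fun G : SpecialLinearGroup (Fin r) ℂ => (↑G : Mat r)) key
  calc A * (B * K) * A⁻¹ * (B * K)⁻¹ = A * B * (K * A⁻¹) * K⁻¹ * B⁻¹ := by group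
    _ = A * B * (A⁻¹ * K) * K⁻¹ * B⁻¹ := by rw [hc'.inv_right.eq]
    _ = A * B * A⁻¹ * B⁻¹ := by group

lemma comm_twist_left {a b k : Mat r} (ha : a.det = 1) (hb : b.det = 1) (hk : k.det = 1)
    (hc : k * b = b * k) : comm (a * k, b) = comm (a, b) := by
  obtain ⟨A, rfl⟩ : ∃ A : SpecialLinearGroup (Fin r) ℂ, (↑A : Mat r) = a := ⟨⟨a, ha⟩, rfl⟩
  obtain ⟨B, rfl⟩ : ∃ B : SpecialLinearGroup (Fin r) ℂ, (↑B : Mat r) = b := ⟨⟨b, hb⟩, rfl⟩
  obtain ⟨K, rfl⟩ : ∃ K : SpecialLinearGroup (Fin r) ℂ, (↑K : Mat r) = k := ⟨⟨k, hk⟩, rfl⟩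
  have hc' : Commute K B := Subtype.ext hc
  suffices key : A * K * B * (A * K)⁻¹ * B⁻¹ = A * B * A⁻¹ * B⁻¹ by
    simp only [comm]
    exact congrArg (fun G : SpecialLinearGroup (Fin r) ℂ => (↑G : Mat r)) key
  calc A * K * B * (A * K)⁻¹ * B⁻¹ = A * (K * B) * K⁻¹ * A⁻¹ * B⁻¹ := by group
    _ = A * (B * K) * K⁻¹ * A⁻¹ * B⁻¹ := by rw [hc'.eq]
    _ = A * B * A⁻¹ * B⁻¹ := by group

/-- The key identity for sliding handle `(a,b)` over `(c,d)` with `M` in between. -/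
lemma comm_slide {a b c d M k : Mat r} (ha : a.det = 1) (hb : b.det = 1) (hc : c.det = 1)
    (hd : d.det = 1) (hM : M.det = 1) (hk : k.det = 1)
    (hcom : k * (b.adjugate * M * c * M.adjugate) = b.adjugate * M * c * M.adjugate * k) :
    comm (a * k.adjugate, k * b * k.adjugate) * M *
      comm (M.adjugate * k * M * c * (M.adjugate * k.adjugate * M), d * (M.adjugate * k.adjugate * M))
      = comm (a, b) * M * comm (c, d) := by
  obtain ⟨A, rfl⟩ : ∃ A : SpecialLinearGroup (Fin r) ℂ, (↑A : Mat r) = a := ⟨⟨a, ha⟩, rfl⟩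
  obtain ⟨B, rfl⟩ : ∃ B : SpecialLinearGroup (Fin r) ℂ, (↑B : Mat r) = b := ⟨⟨b, hb⟩, rfl⟩
  obtain ⟨C, rfl⟩ : ∃ C : SpecialLinearGroup (Fin r) ℂ, (↑C : Mat r) = c := ⟨⟨c, hc⟩, rfl⟩
  obtain ⟨D, rfl⟩ : ∃ D : SpecialLinearGroup (Fin r) ℂ, (↑D : Mat r) = d := ⟨⟨d, hd⟩, rfl⟩
  obtain ⟨N, rfl⟩ : ∃ N : SpecialLinearGroup (Fin r) ℂ, (↑N : Mat r) = M := ⟨⟨M, hM⟩, rfl⟩
  obtain ⟨K, rfl⟩ : ∃ K : SpecialLinearGroup (Fin r) ℂ, (↑K : Mat r) = k := ⟨⟨k, hk⟩, rfl⟩
  have hc' : K * (B⁻¹ * N * C * N⁻¹) = B⁻¹ * N * C * N⁻¹ * K := Subtype.ext (by simpa using hcom)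
  suffices key : A * K⁻¹ * (K * B * K⁻¹) * (A * K⁻¹)⁻¹ * (K * B * K⁻¹)⁻¹ * N *
      (N⁻¹ * K * N * C * (N⁻¹ * K⁻¹ * N) * (D * (N⁻¹ * K⁻¹ * N)) *
        (N⁻¹ * K * N * C * (N⁻¹ * K⁻¹ * N))⁻¹ * (D * (N⁻¹ * K⁻¹ * N))⁻¹) = A * B * A⁻¹ * B⁻¹ * N * (C * D * C⁻¹ * D⁻¹) by
    simp only [comm]
    exact congrArg (fun G : SpecialLinearGroup (Fin r) ℂ => (↑G : Mat r)) key
  calc A * K⁻¹ * (K * B * K⁻¹) * (A * K⁻¹)⁻¹ * (K * B * K⁻¹)⁻¹ * N *
      (N⁻¹ * K * N * C * (N⁻¹ * K⁻¹ * N) * (D * (N⁻¹ * K⁻¹ * N)) *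
        (N⁻¹ * K * N * C * (N⁻¹ * K⁻¹ * N))⁻¹ * (D * (N⁻¹ * K⁻¹ * N))⁻¹)
      = A * B * A⁻¹ * (K * (B⁻¹ * N * C * N⁻¹)) * K⁻¹ * N * (D * C⁻¹ * D⁻¹) := by group
    _ = A * B * A⁻¹ * (B⁻¹ * N * C * N⁻¹ * K) * K⁻¹ * N * (D * C⁻¹ * D⁻¹) := by rw [hc']
    _ = A * B * A⁻¹ * B⁻¹ * N * (C * D * C⁻¹ * D⁻¹) := by group

/-- Change handles `0` and `1`. -/
def with01 (x : Tup (h + 2) r) (P Q : Mat r × Mat r) : Tup (h + 2) r :=
  Fin.cons P (Fin.cons Q fun j => x j.succ.succ)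

lemma with01_hom {x : Tup (h + 2) r} (hx : x ∈ Hom (h + 2) r) {P Q : Mat r × Mat r}
    (hP : P.1.det = 1 ∧ P.2.det = 1) (hQ : Q.1.det = 1 ∧ Q.2.det = 1)
    (hPQ : comm P * comm Q = comm (x 0) * comm (x 1)) : with01 x P Q ∈ Hom (h + 2) r := by
  refine ⟨Fin.cases hP (Fin.cases hQ fun j => hx.1 _), ?_⟩
  rw [← hx.2, rel_split, rel_split x, ← mul_assoc, ← mul_assoc (comm (x 0))]
  show comm P * comm Q * _ = _
  rw [hPQ]; rfl

lemma with01_int {x : Tup (h + 2) r} (hx : IntTup x) {P Q : Mat r × Mat r}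
    (hP : IntMat P.1 ∧ IntMat P.2) (hQ : IntMat Q.1 ∧ IntMat Q.2) : IntTup (with01 x P Q) :=
  Fin.cases hP (Fin.cases hQ fun _ => hx _)

lemma with01_self (x : Tup (h + 2) r) : with01 x (x 0) (x 1) = x := by
  funext i; exact Fin.cases rfl (Fin.cases rfl fun _ => rfl) i

lemma PMap.with01 {T : Type*} [NormedAddCommGroup T] [NormedSpace ℂ T]
    {φ : T → Tup (h + 2) r} {P Q : T → Mat r × Mat r} (hφ : PMap φ) (hP : PMap P) (hQ : PMap Q) :
    PMap (fun t => Surface.with01 (φ t) (P t) (Q t)) :=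
  PMap.pi (φ := fun t => Surface.with01 (φ t) (P t) (Q t)) (fun i => by
    refine Fin.cases ?_ (Fin.cases ?_ (fun j => ?_)) i
    · exact hP
    · exact hQ
    · show PMap (fun t => φ t j.succ.succ)
      exact PMap.comp (φ := fun x : Tup (h + 2) r => x j.succ.succ) (PMap.proj _) hφ)

section coordinate

variable {T : Type*} [NormedAddCommGroup T] [NormedSpace ℂ T]

private lemma px (i : Fin (h + 2)) :
    PMap (fun q : Tup (h + 2) r × (Mat r × Mat r) => (q.1 i).1) := (PMap.slot1 i).comp PMap.fst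

private lemma py (i : Fin (h + 2)) :
    PMap (fun q : Tup (h + 2) r × (Mat r × Mat r) => (q.1 i).2) := (PMap.slot2 i).comp PMap.fst

private lemma pk : PMap (fun q : Tup (h + 2) r × (Mat r × Mat r) => q.2.1) :=
  PMap.fst.comp PMap.snd

private lemma pk' : PMap (fun q : Tup (h + 2) r × (Mat r × Mat r) => q.2.2) :=
  PMap.snd.comp PMap.snd

/-- The twist along `a₀`. -/
def twist0 (h r : ℕ) : Move h r where
  word x := (x 0).1
  act x k _ := with01 x ((x 0).1, (x 0).2 * k) (x 1)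
  pword := PMap.slot1 0
  pact := PMap.with01 PMap.fst ((px 0).prodMk ((py 0).mul pk)) ((PMap.proj 1).comp PMap.fst)
  word_det x hx := (hx.1 0).1
  word_int x hx := (hx 0).1
  act_hom x hx k k' hk _ hc := with01_hom hx ⟨(hx.1 0).1, by rw [det_mul, (hx.1 0).2, hk, one_mul]⟩
    (hx.1 1) (by rw [comm_twist_right (hx.1 0).1 (hx.1 0).2 hk hc])
  act_int x k k' hx hk _ := with01_int hx ⟨(hx 0).1, (hx 0).2.mul hk⟩ (hx 1)
  act_one x _ := by simp [with01_self]
  wit A hA := ⟨A, 1, hA, det_one, rfl⟩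

/-- The twist along `b₁`. -/
def twist1 (h r : ℕ) : Move h r where
  word x := (x 1).2
  act x k _ := with01 x (x 0) ((x 1).1 * k, (x 1).2)
  pword := PMap.slot2 1
  pact := PMap.with01 PMap.fst ((PMap.proj 0).comp PMap.fst) (((px 1).mul pk).prodMk (py 1))
  word_det x hx := (hx.1 1).2
  word_int x hx := (hx 1).2
  act_hom x hx k k' hk _ hc := with01_hom hx (hx.1 0)
    ⟨by rw [det_mul, (hx.1 1).1, hk, one_mul], (hx.1 1).2⟩
    (by rw [comm_twist_left (hx.1 1).1 (hx.1 1).2 hk hc])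
  act_int x k k' hx hk _ := with01_int hx (hx 0) ⟨(hx 1).1.mul hk, (hx 1).2⟩
  act_one x _ := by simp [with01_self]
  wit A hA := ⟨A, 1, hA, det_one, rfl⟩

/-- The slide between handles `0` and `1`. -/
def slide01 (h r : ℕ) : Move h r where
  word x := (x 0).2.adjugate * (x 1).1 * (x 1).2
  act x k k' := with01 x ((x 0).1 * k', k * (x 0).2 * k') (k * (x 1).1, (x 1).2 * k')
  pword := ((PMap.slot2 0).adjugate.mul (PMap.slot1 1)).mul (PMap.slot2 1)
  pact := PMap.with01 PMap.fst (((px 0).mul pk').prodMk ((pk.mul (py 0)).mul pk'))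
    ((pk.mul (px 1)).prodMk ((py 1).mul pk'))
  word_det x hx := by simp [det_mul, det_adjugate, (hx.1 0).2, (hx.1 1).1, (hx.1 1).2]
  word_int x hx := ((hx 0).2.adjugate.mul (hx 1).1).mul (hx 1).2
  act_int x k k' hx hk hk' := with01_int hx ⟨(hx 0).1.mul hk', (hk.mul (hx 0).2).mul hk'⟩
    ⟨hk.mul (hx 1).1, (hx 1).2.mul hk'⟩
  act_one x _ := by simp [with01_self]
  wit A hA := ⟨A, 1, hA, det_one, by simp⟩
  act_hom x hx k k' hk hk' hc := by
    subst hk'
    refine with01_hom hx (by simp [det_mul, det_adjugate, hk, (hx.1 0).1, (hx.1 0).2])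
      (by simp [det_mul, det_adjugate, hk, (hx.1 1).1, (hx.1 1).2]) ?_
    obtain ⟨A, hA⟩ : ∃ A : SpecialLinearGroup (Fin r) ℂ, (↑A : Mat r) = (x 0).1 := ⟨⟨_, (hx.1 0).1⟩, rfl⟩
    obtain ⟨B, hB⟩ : ∃ A : SpecialLinearGroup (Fin r) ℂ, (↑A : Mat r) = (x 0).2 := ⟨⟨_, (hx.1 0).2⟩, rfl⟩
    obtain ⟨C, hC⟩ : ∃ A : SpecialLinearGroup (Fin r) ℂ, (↑A : Mat r) = (x 1).1 := ⟨⟨_, (hx.1 1).1⟩, rfl⟩
    obtain ⟨D, hD⟩ : ∃ A : SpecialLinearGroup (Fin r) ℂ, (↑A : Mat r) = (x 1).2 := ⟨⟨_, (hx.1 1).2⟩, rfl⟩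
    obtain ⟨K, rfl⟩ : ∃ A : SpecialLinearGroup (Fin r) ℂ, (↑A : Mat r) = k := ⟨⟨_, hk⟩, rfl⟩
    rw [show comm (x 0) = comm ((x 0).1, (x 0).2) from rfl,
      show comm (x 1) = comm ((x 1).1, (x 1).2) from rfl]
    simp only [← hA, ← hB, ← hC, ← hD] at hc ⊢
    have hc' : K * (B⁻¹ * C * D) = B⁻¹ * C * D * K := Subtype.ext (by simpa using hc)
    suffices key : A * K⁻¹ * (K * B * K⁻¹) * (A * K⁻¹)⁻¹ * (K * B * K⁻¹)⁻¹ *
        (K * C * (D * K⁻¹) * (K * C)⁻¹ * (D * K⁻¹)⁻¹) = A * B * A⁻¹ * B⁻¹ * (C * D * C⁻¹ * D⁻¹) by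
      simp only [comm]
      exact congrArg (fun G : SpecialLinearGroup (Fin r) ℂ => (↑G : Mat r)) key
    calc A * K⁻¹ * (K * B * K⁻¹) * (A * K⁻¹)⁻¹ * (K * B * K⁻¹)⁻¹ *
        (K * C * (D * K⁻¹) * (K * C)⁻¹ * (D * K⁻¹)⁻¹)
        = A * B * A⁻¹ * (K * (B⁻¹ * C * D)) * K⁻¹ * C⁻¹ * D⁻¹ := by group
      _ = A * B * A⁻¹ * (B⁻¹ * C * D * K) * K⁻¹ * C⁻¹ * D⁻¹ := by rw [hc']
      _ = A * B * A⁻¹ * B⁻¹ * (C * D * C⁻¹ * D⁻¹) := by group

/-- The product of the handles strictly between `1` and `j+2`. -/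
def mid (j : Fin h) (x : Tup (h + 2) r) : Mat r :=
  ((List.ofFn fun i : Fin h => comm (x i.succ.succ)).take j).prod

lemma mid_eq (j : Fin h) (x : Tup (h + 2) r) :
    mid j x = (((List.finRange h).take j).map fun i => comm (x i.succ.succ)).prod := by
  rw [mid, List.ofFn_eq_map, List.map_take]

lemma mid_det (j : Fin h) {x : Tup (h + 2) r} (hx : x ∈ Hom (h + 2) r) : (mid j x).det = 1 := by
  rw [mid_eq]
  induction (List.finRange h).take j with
  | nil => simp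
  | cons a L ih => simp [det_mul, ih, hom_comm_det (hx.1 _).1 (hx.1 _).2]

lemma mid_int (j : Fin h) {x : Tup (h + 2) r} (hx : IntTup x) : IntMat (mid j x) := by
  rw [mid_eq]
  refine IntMat.listProd fun M hM => ?_
  obtain ⟨i, -, rfl⟩ := List.mem_map.1 hM
  exact (((hx _).1.mul (hx _).2).mul (hx _).1.adjugate).mul (hx _).2.adjugate

lemma PMap.mid (j : Fin h) : PMap (fun x : Tup (h + 2) r => Surface.mid j x) := by
  simp only [mid_eq]
  exact PMap.listProd _ _ fun i _ => PMap.comm_slot _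

/-- Change handle `1` and handle `j+2`. -/
def with1j (j : Fin h) (x : Tup (h + 2) r) (P Q : Mat r × Mat r) : Tup (h + 2) r :=
  Fin.cons (x 0) (Fin.cons P fun i => if i = j then Q else x i.succ.succ)

lemma with1j_succ (j : Fin h) (x : Tup (h + 2) r) (P Q : Mat r × Mat r) (i : Fin h) :
    with1j j x P Q i.succ.succ = if i = j then Q else x i.succ.succ := rfl

lemma ofFn_prod_split (f : Fin h → Mat r) (j : Fin h) :
    (List.ofFn f).prod =
      ((List.ofFn f).take j).prod * f j * ((List.ofFn f).drop (j + 1)).prod := by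
  conv_lhs => rw [← List.take_append_drop j (List.ofFn f), List.prod_append]
  rw [List.drop_eq_getElem_cons (by simp), List.prod_cons, List.getElem_ofFn, mul_assoc]

lemma with1j_hom (j : Fin h) {x : Tup (h + 2) r} (hx : x ∈ Hom (h + 2) r) {P Q : Mat r × Mat r}
    (hP : P.1.det = 1 ∧ P.2.det = 1) (hQ : Q.1.det = 1 ∧ Q.2.det = 1)
    (hPQ : comm P * mid j x * comm Q = comm (x 1) * mid j x * comm (x j.succ.succ)) :
    with1j j x P Q ∈ Hom (h + 2) r := by
  constructor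
  · refine Fin.cases (hx.1 0) (Fin.cases hP fun i => ?_)
    by_cases hi : i = j
    · simp [with1j_succ, hi, hQ.1, hQ.2]
    · simp [with1j_succ, hi, hx.1]
  · rw [← hx.2, rel_split, rel_split x]
    show comm (x 0) * (comm P * _) = _
    congr 1
    refine Eq.trans (congrArg (fun z => comm P * z)
      (ofFn_prod_split (fun i : Fin h => comm (with1j j x P Q i.succ.succ)) j)) ?_
    rw [ofFn_prod_split (fun i : Fin h => comm (x i.succ.succ)) j]
    have e1 : ((List.ofFn fun i : Fin h => comm (with1j j x P Q i.succ.succ)).take j).prod = mid j x := by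
      rw [mid]
      refine congrArg List.prod (List.ext_getElem (by simp only [List.length_take, List.length_ofFn])
        fun n h1 h2 => ?_)
      simp only [List.getElem_take, List.getElem_ofFn]
      have : (⟨n, by simp at h1; omega⟩ : Fin h) ≠ j := by
        intro e; have := congrArg Fin.val e; simp at this h1; omega
      simp only [with1j_succ, this, if_false]
    have e2 : ((List.ofFn fun i : Fin h => comm (with1j j x P Q i.succ.succ)).drop (j + 1)) =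
        (List.ofFn fun i : Fin h => comm (x i.succ.succ)).drop (j + 1) := by
      refine List.ext_getElem (by simp only [List.length_drop, List.length_ofFn]) fun n h1 h2 => ?_
      simp only [List.getElem_drop, List.getElem_ofFn]
      have : (⟨(j : ℕ) + 1 + n, by simp at h1; omega⟩ : Fin h) ≠ j := by
        intro e; have := congrArg Fin.val e; simp at this; omega
      simp only [with1j_succ, this, if_false]
    rw [e1, e2]
    rw [show comm (with1j j x P Q j.succ.succ) = comm Q by rw [with1j_succ, if_pos rfl]]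
    rw [← mul_assoc (comm P), ← mul_assoc (comm P), hPQ]
    simp only [mid, mul_assoc]

/-- The slide between handles `1` and `j+2`. -/
def slide1 (r : ℕ) (j : Fin h) : Move h r where
  word x := (x 1).2.adjugate * mid j x * (x j.succ.succ).1 * (mid j x).adjugate
  act x k k' := with1j j x ((x 1).1 * k', k * (x 1).2 * k')
    ((mid j x).adjugate * k * mid j x * (x j.succ.succ).1 * ((mid j x).adjugate * k' * mid j x),
      (x j.succ.succ).2 * ((mid j x).adjugate * k' * mid j x))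
  pword := (((PMap.slot2 1).adjugate.mul (PMap.mid j)).mul (PMap.slot1 _)).mul (PMap.mid j).adjugate
  pact := by
    have pm : PMap (fun q : Tup (h + 2) r × (Mat r × Mat r) => mid j q.1) :=
      (PMap.mid j).comp PMap.fst
    refine PMap.pi fun i => ?_
    refine Fin.cases ?_ (Fin.cases ?_ fun i => ?_) i
    · show PMap (fun q : Tup (h + 2) r × (Mat r × Mat r) => q.1 0)
      exact PMap.comp (φ := fun x : Tup (h + 2) r => x 0) (PMap.proj 0) PMap.fst
    · exact ((px 1).mul pk').prodMk ((pk.mul (py 1)).mul pk')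
    by_cases hi : i = j
    · simp only [with1j_succ, hi, if_true]
      exact ((((pm.adjugate.mul pk).mul pm).mul (px _)).mul ((pm.adjugate.mul pk').mul pm)).prodMk
        ((py _).mul ((pm.adjugate.mul pk').mul pm))
    · simp only [with1j_succ, hi, if_false]
      exact PMap.comp (φ := fun x : Tup (h + 2) r => x i.succ.succ) (PMap.proj _) PMap.fst
  word_det x hx := by
    simp [det_mul, det_adjugate, mid_det j hx, (hx.1 1).2, (hx.1 j.succ.succ).1]
  word_int x hx := (((hx 1).2.adjugate.mul (mid_int j hx)).mul (hx _).1).mul (mid_int j hx).adjugate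
  act_int x k k' hx hk hk' := by
    have hm := mid_int j hx
    refine Fin.cases (hx 0) (Fin.cases ⟨(hx 1).1.mul hk', (hk.mul (hx 1).2).mul hk'⟩ fun i => ?_)
    by_cases hi : i = j
    · simp only [with1j_succ, hi, if_true]
      exact ⟨(((hm.adjugate.mul hk).mul hm).mul (hx _).1).mul ((hm.adjugate.mul hk').mul hm),
        (hx _).2.mul ((hm.adjugate.mul hk').mul hm)⟩
    · simp only [with1j_succ, hi, if_false]
      exact hx _
  act_hom x hx k k' hk hk' hc := by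
    subst hk'
    refine with1j_hom j hx (by simp [det_mul, det_adjugate, hk, (hx.1 1).1, (hx.1 1).2])
      (by simp [det_mul, det_adjugate, hk, mid_det j hx, (hx.1 j.succ.succ).1,
        (hx.1 j.succ.succ).2]) ?_
    exact comm_slide (hx.1 1).1 (hx.1 1).2 (hx.1 _).1 (hx.1 _).2 (mid_det j hx) hk hc
  act_one x hx := by
    have e : (mid j x).adjugate * mid j x = 1 := adj_mul (mid_det j hx)
    funext i
    refine Fin.cases rfl (Fin.cases ?_ fun i => ?_) i
    · simp [with1j]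
    · by_cases hi : i = j
      · simp [with1j_succ, hi, e]
      · simp [with1j_succ, hi]
  wit A hA := by
    refine ⟨A.adjugate, 1, by rw [det_adjugate, hA, one_pow], det_one, ?_⟩
    have : mid j (Mir h A.adjugate (1 : Mat r)) = 1 := by
      rw [mid_eq]; induction (List.finRange h).take j with
      | nil => rfl
      | cons a L ih => simp [comm_one]
    show (Mir h A.adjugate 1 1).2.adjugate * _ * (Mir h A.adjugate 1 j.succ.succ).1 * _ = A
    rw [this, Mir_one, Mir_succ, adjugate_one, mul_one, mul_one, mul_one]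
    exact left_inv_eq_right_inv (adj_mul (by rw [det_adjugate, hA, one_pow])) (adj_mul hA)

end coordinate

end Vale.Agent.P002.Surface
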